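import Vale.Agent.P091.H690.StageG

set_option linter.all false

namespace Vale.Agent.P091

open Finset MeasureTheory AddCircle

variable {T : ℝ}

/-- the frequencies of the blocks -/
def modCen (e i : ℕ) : ℤ := 4 ^ (i + 1) * (e + 1)

theorem modCen_ge (e i : ℕ) : 4 * ((e : ℤ) + 1) ≤ modCen e i := by
  unfold modCen
  have : (4 : ℤ) ≤ 4 ^ (i + 1) := by
    calc (4 : ℤ) = 4 ^ 1 := by norm_num
      _ ≤ 4 ^ (i + 1) := pow_le_pow_right₀ (by norm_num) (by omega)
  nlinarith [(Int.natCast_nonneg e)]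

theorem modCen_lt (e : ℕ) {i l : ℕ} (h : i < l) : 4 * modCen e i ≤ modCen e l := by
  unfold modCen
  have : (4 : ℤ) ^ (i + 1 + 1) ≤ 4 ^ (l + 1) := pow_le_pow_right₀ (by norm_num) (by omega)
  rw [pow_succ] at this
  nlinarith [(Int.natCast_nonneg e)]

/-- the weights -/
noncomputable def modWt (τ : ℤ) : ℂ := if τ = 0 then 1 else 1 / 4

/-- coefficients of the sum of modulated blocks -/
noncomputable def modBlk (r : ℕ) (dd : ℕ → ℕ) (c : ℕ → ℤ → ℂ) (e : ℕ) (l : ℤ) : ℂ :=
  ∑ i ∈ range (r + 1), ∑ τ ∈ Icc (-2 : ℤ) 2, ∑ k ∈ Icc (-(dd i : ℤ)) (dd i),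
    if k + τ * modCen e i = l then modWt τ * c i k else 0

theorem trigSum_blk (r : ℕ) (dd : ℕ → ℕ) (c : ℕ → ℤ → ℂ) (e N : ℕ) (x : AddCircle T) :
    trigSum (modBlk r dd c e) N x =
      ∑ i ∈ range (r + 1), ∑ τ ∈ Icc (-2 : ℤ) 2, ∑ k ∈ Icc (-(dd i : ℤ)) (dd i),
        if k + τ * modCen e i ∈ Icc (-(N : ℤ)) N then modWt τ * c i k * fourier (k + τ * modCen e i) x
          else 0 := by
  unfold trigSum modBlk
  simp only [sum_mul]
  rw [sum_comm]
  refine sum_congr rfl fun i _ => ?_
  rw [sum_comm]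
  refine sum_congr rfl fun τ _ => ?_
  have h := sum_collect (Icc (-(dd i : ℤ)) (dd i)) (fun k => modWt τ * c i k)
    (fun k => k + τ * modCen e i) (Icc (-(N : ℤ)) N) x
  simp only [sum_mul] at h
  exact h

theorem Icc_five : Icc (-2 : ℤ) 2 = {-2, -1, 0, 1, 2} := by decide

theorem fourier_mul_split (k m : ℤ) (x : AddCircle T) :
    (fourier (k + m) x : ℂ) = fourier m x * fourier k x := by
  rw [fourier_add, mul_comm]

theorem fourier_pair (m : ℤ) (x : AddCircle T) :
    (fourier m x : ℂ) + fourier (-m) x = ((2 * (fourier m x).re : ℝ) : ℂ) := by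
  rw [fourier_neg, Complex.add_conj]

theorem fourier_two (m : ℤ) (x : AddCircle T) :
    (fourier (2 * m) x : ℂ).re = 2 * (fourier m x : ℂ).re ^ 2 - 1 := by
  have h1 : (fourier (2 * m) x : ℂ) = fourier m x * fourier m x := by
    rw [two_mul, fourier_add]
  have h2 : (fourier m x : ℂ).re ^ 2 + (fourier m x : ℂ).im ^ 2 = 1 := by
    have h3 := norm_fourier m x
    have h4 := Complex.sq_norm (fourier m x : ℂ)
    rw [h3, Complex.normSq_apply] at h4
    linarith
  rw [h1, Complex.mul_re]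
  linarith

/-- the value of the whole sum -/
theorem trigSum_blk_full (r : ℕ) (dd : ℕ → ℕ) (c : ℕ → ℤ → ℂ) (e : ℕ)
    (hdd : ∀ i ≤ r, dd i ≤ e) (N : ℕ) (hN : 2 * modCen e r + e ≤ N) (x : AddCircle T) :
    trigSum (modBlk r dd c e) N x = ∑ i ∈ range (r + 1),
      ((1 + (fourier (modCen e i) x : ℂ).re / 2 + (fourier (2 * modCen e i) x : ℂ).re / 2 : ℝ) : ℂ) *
        trigSum (c i) (dd i) x := by
  rw [trigSum_blk]
  refine sum_congr rfl fun i hi => ?_
  rw [mem_range] at hi
  have hir : modCen e i ≤ modCen e r := by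
    rcases Nat.lt_or_ge i r with h | h
    · have := modCen_lt e h
      have := modCen_ge e i
      omega
    · have : i = r := by omega
      rw [this]
  have hci := modCen_ge e i
  have hde := hdd i (by omega)
  have h1 : ∀ τ ∈ Icc (-2 : ℤ) 2, (∑ k ∈ Icc (-(dd i : ℤ)) (dd i),
      if k + τ * modCen e i ∈ Icc (-(N : ℤ)) N then modWt τ * c i k * (fourier (k + τ * modCen e i) x : ℂ)
          else 0) = modWt τ * fourier (τ * modCen e i) x * trigSum (c i) (dd i) x := by
    intro τ hτ
    rw [mem_Icc] at hτ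
    unfold trigSum
    rw [mul_sum]
    refine sum_congr rfl fun k hk => ?_
    rw [mem_Icc] at hk
    have hτ' : τ = -2 ∨ τ = -1 ∨ τ = 0 ∨ τ = 1 ∨ τ = 2 := by omega
    rw [if_pos]
    · rw [fourier_mul_split]; ring
    · rw [mem_Icc]
      rcases hτ' with rfl | rfl | rfl | rfl | rfl <;> constructor <;> omega
  rw [sum_congr rfl h1, ← sum_mul]
  congr 1
  rw [Icc_five]
  rw [sum_insert (by decide), sum_insert (by decide), sum_insert (by decide), sum_insert (by decide),
    sum_singleton]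
  unfold modWt
  rw [if_neg (by decide), if_neg (by decide), if_pos rfl, if_neg (by decide), if_neg (by decide)]
  have h2 := fourier_pair (modCen e i) x
  have h3 := fourier_pair (2 * modCen e i) x
  have e1 : -2 * modCen e i = -(2 * modCen e i) := by ring
  have e2 : -1 * modCen e i = -modCen e i := by ring
  have e3 : 1 * modCen e i = modCen e i := by ring
  rw [e1, e2, e3, zero_mul, fourier_zero]
  push_cast at h2 h3 ⊢
  linear_combination (1 / 4) * h2 + (1 / 4) * h3

/-- a window of the sum -/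
theorem trigSum_blk_window (r : ℕ) (dd : ℕ → ℕ) (c : ℕ → ℤ → ℂ) (e : ℕ)
    (hdd : ∀ i ≤ r, dd i ≤ e) (i : ℕ) (hi : i ≤ r) (n : ℕ) (hn : n ≤ dd i) (s : ℤ)
    (hs : s = 1 ∨ s = 2) (N₁ N₂ : ℕ) (hN₁ : (N₁ : ℤ) = s * modCen e i - n - 1)
    (hN₂ : (N₂ : ℤ) = s * modCen e i + n) (x : AddCircle T) :
    trigSum (modBlk r dd c e) N₂ x - trigSum (modBlk r dd c e) N₁ x =
      (((fourier (s * modCen e i) x : ℂ).re / 2 : ℝ) : ℂ) * trigSum (c i) n x := by
  rw [trigSum_blk, trigSum_blk, ← sum_sub_distrib]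
  have hci := modCen_ge e i
  have hne := hdd i hi
  rw [sum_eq_single i]
  · -- the block itself
    rw [← sum_sub_distrib]
    have h1 : ∀ τ ∈ Icc (-2 : ℤ) 2, ((∑ k ∈ Icc (-(dd i : ℤ)) (dd i),
        if k + τ * modCen e i ∈ Icc (-(N₂ : ℤ)) N₂ then modWt τ * c i k * (fourier (k + τ * modCen e i) x : ℂ)
          else 0) - ∑ k ∈ Icc (-(dd i : ℤ)) (dd i),
        if k + τ * modCen e i ∈ Icc (-(N₁ : ℤ)) N₁ then modWt τ * c i k * (fourier (k + τ * modCen e i) x : ℂ)
          else 0) = if τ = s ∨ τ = -s then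
            1 / 4 * fourier (τ * modCen e i) x * trigSum (c i) n x else 0 := by
      intro τ hτ
      rw [mem_Icc] at hτ
      rw [← sum_sub_distrib]
      have hτ' : τ = -2 ∨ τ = -1 ∨ τ = 0 ∨ τ = 1 ∨ τ = 2 := by omega
      split_ifs with hcase
      · have hwt : modWt τ = 1 / 4 := by
          unfold modWt; rw [if_neg (by omega)]
        have hsub : Icc (-(n : ℤ)) n ⊆ Icc (-(dd i : ℤ)) (dd i) := by
          apply Icc_subset_Icc <;> omega
        unfold trigSum
        rw [mul_sum, ← sum_subset hsub]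
        · refine sum_congr rfl fun k hk => ?_
          rw [mem_Icc] at hk
          rw [if_pos, if_neg, sub_zero, hwt, fourier_mul_split]
          · ring
          · rw [mem_Icc]
            rcases hs with rfl | rfl <;> rcases hcase with rfl | rfl <;> omega
          · rw [mem_Icc]
            rcases hs with rfl | rfl <;> rcases hcase with rfl | rfl <;> omega
        · intro k hk hk'
          rw [mem_Icc] at hk hk'
          by_cases h2 : k + τ * modCen e i ∈ Icc (-(N₁ : ℤ)) N₁
          · rw [if_pos h2, if_pos, sub_self]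
            rw [mem_Icc] at h2 ⊢
            omega
          · rw [if_neg h2, if_neg, sub_self]
            rw [mem_Icc] at h2 ⊢
            rcases hs with rfl | rfl <;> rcases hcase with rfl | rfl <;> omega
      · refine sum_eq_zero fun k hk => ?_
        rw [mem_Icc] at hk
        by_cases h2 : k + τ * modCen e i ∈ Icc (-(N₁ : ℤ)) N₁
        · rw [if_pos h2, if_pos, sub_self]
          rw [mem_Icc] at h2 ⊢
          omega
        · rw [if_neg h2, if_neg, sub_self]
          rw [mem_Icc] at h2 ⊢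
          push Not at hcase
          rcases hs with rfl | rfl <;> rcases hτ' with rfl | rfl | rfl | rfl | rfl <;> omega
    rw [sum_congr rfl h1]
    have h2 := fourier_pair (s * modCen e i) x
    have h3 : (((fourier (s * modCen e i) x : ℂ).re / 2 : ℝ) : ℂ) =
        1 / 4 * fourier (s * modCen e i) x + 1 / 4 * fourier (-(s * modCen e i)) x := by
      push_cast at h2 ⊢
      linear_combination (-1 / 4) * h2
    rw [h3, Icc_five]
    rw [sum_insert (by decide), sum_insert (by decide), sum_insert (by decide),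
      sum_insert (by decide), sum_singleton]
    rcases hs with rfl | rfl
    · rw [if_neg (by decide), if_pos (by decide), if_neg (by decide), if_pos (by decide),
        if_neg (by decide)]
      have e1 : -1 * modCen e i = -(1 * modCen e i) := by ring
      rw [e1]; ring
    · rw [if_pos (by decide), if_neg (by decide), if_neg (by decide), if_neg (by decide),
        if_pos (by decide)]
      have e1 : -2 * modCen e i = -(2 * modCen e i) := by ring
      rw [e1]; ring
  · -- the other blocks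
    intro i' hi' hne'
    rw [mem_range] at hi'
    have hci' := modCen_ge e i'
    have hde' := hdd i' (by omega)
    rw [← sum_sub_distrib]
    refine sum_eq_zero fun τ hτ => ?_
    rw [mem_Icc] at hτ
    rw [← sum_sub_distrib]
    refine sum_eq_zero fun k hk => ?_
    rw [mem_Icc] at hk
    have hτ' : τ = -2 ∨ τ = -1 ∨ τ = 0 ∨ τ = 1 ∨ τ = 2 := by omega
    by_cases h2 : k + τ * modCen e i' ∈ Icc (-(N₁ : ℤ)) N₁
    · rw [if_pos h2, if_pos, sub_self]
      rw [mem_Icc] at h2 ⊢
      omega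
    · rw [if_neg h2, if_neg, sub_self]
      rw [mem_Icc] at h2 ⊢
      rcases Nat.lt_or_gt_of_ne hne' with hlt | hgt
      · have h4 := modCen_lt e hlt
        rcases hs with rfl | rfl <;> rcases hτ' with rfl | rfl | rfl | rfl | rfl <;> omega
      · have h4 := modCen_lt e hgt
        rcases hs with rfl | rfl <;> rcases hτ' with rfl | rfl | rfl | rfl | rfl <;> omega
  · intro h
    exact absurd (mem_range.2 (by omega)) h

/-- every large partial sum of a block gives a large partial sum of the whole -/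
theorem exists_window (r : ℕ) (dd : ℕ → ℕ) (c : ℕ → ℤ → ℂ) (e : ℕ)
    (hdd : ∀ i ≤ r, dd i ≤ e) (i : ℕ) (hi : i ≤ r) (n : ℕ) (hn : n ≤ dd i) (x : AddCircle T) :
    ∃ N : ℕ, (N : ℤ) ≤ 2 * modCen e r + e ∧
      ‖trigSum (c i) n x‖ / 8 ≤ ‖trigSum (modBlk r dd c e) N x‖ := by
  have hci := modCen_ge e i
  have hne := hdd i hi
  have hir : modCen e i ≤ modCen e r := by
    rcases Nat.lt_or_ge i r with h | h
    · have := modCen_lt e h
      omega
    · have : i = r := by omega
      rw [this]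
  have key : ∀ s : ℤ, (s = 1 ∨ s = 2) → 1 / 2 ≤ |(fourier (s * modCen e i) x : ℂ).re| →
      ∃ N : ℕ, (N : ℤ) ≤ 2 * modCen e r + e ∧
        ‖trigSum (c i) n x‖ / 8 ≤ ‖trigSum (modBlk r dd c e) N x‖ := by
    intro s hs hbig
    obtain ⟨N₁, hN₁⟩ : ∃ N₁ : ℕ, (N₁ : ℤ) = s * modCen e i - n - 1 :=
      ⟨(s * modCen e i - n - 1).toNat, by rw [Int.toNat_of_nonneg]; rcases hs with rfl | rfl <;> omega⟩
    obtain ⟨N₂, hN₂⟩ : ∃ N₂ : ℕ, (N₂ : ℤ) = s * modCen e i + n :=
      ⟨(s * modCen e i + n).toNat, by rw [Int.toNat_of_nonneg]; rcases hs with rfl | rfl <;> omega⟩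
    have h1 := trigSum_blk_window r dd c e hdd i hi n hn s hs N₁ N₂ hN₁ hN₂ x
    have h2 : ‖trigSum (c i) n x‖ / 4 ≤
        ‖trigSum (modBlk r dd c e) N₂ x - trigSum (modBlk r dd c e) N₁ x‖ := by
      rw [h1, norm_mul, Complex.norm_real, Real.norm_eq_abs, abs_div, abs_two]
      nlinarith [norm_nonneg (trigSum (c i) n x)]
    have h3 := norm_sub_le (trigSum (modBlk r dd c e) N₂ x) (trigSum (modBlk r dd c e) N₁ x)
    by_cases h4 : ‖trigSum (c i) n x‖ / 8 ≤ ‖trigSum (modBlk r dd c e) N₂ x‖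
    · exact ⟨N₂, by rcases hs with rfl | rfl <;> omega, h4⟩
    · exact ⟨N₁, by rcases hs with rfl | rfl <;> omega, by linarith⟩
  by_cases h : 1 / 2 ≤ |(fourier (1 * modCen e i) x : ℂ).re|
  · exact key 1 (Or.inl rfl) h
  · refine key 2 (Or.inr rfl) ?_
    rw [one_mul] at h
    push Not at h
    rw [fourier_two]
    rw [abs_lt] at h
    have h5 : (fourier (modCen e i) x : ℂ).re ^ 2 ≤ 1 / 4 := by nlinarith
    rw [abs_of_nonpos (by linarith)]
    linarith

theorem modBlk_zero (r : ℕ) (dd : ℕ → ℕ) (c : ℕ → ℤ → ℂ) (e : ℕ) (hdd : ∀ i ≤ r, dd i ≤ e) :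
    modBlk r dd c e 0 = ∑ i ∈ range (r + 1), c i 0 := by
  unfold modBlk
  refine sum_congr rfl fun i hi => ?_
  rw [mem_range] at hi
  have hci := modCen_ge e i
  have hne := hdd i (by omega)
  rw [sum_eq_single 0]
  · rw [sum_eq_single 0]
    · simp [modWt]
    · intro k _ hk
      rw [if_neg (by omega)]
    · intro h
      exact absurd (mem_Icc.2 (by omega)) h
  · intro τ hτ hτ0
    rw [mem_Icc] at hτ
    refine sum_eq_zero fun k hk => ?_
    rw [mem_Icc] at hk
    have hτ' : τ = -2 ∨ τ = -1 ∨ τ = 1 ∨ τ = 2 := by omega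
    rw [if_neg]
    rcases hτ' with rfl | rfl | rfl | rfl <;> omega
  · intro h
    exact absurd (by decide) h

end Vale.Agent.P091
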