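import Vale.Agent.P091.H690.Final

set_option linter.all false

namespace Vale.Agent.P091

open Finset MeasureTheory AddCircle Filter Topology

variable {T : ℝ} [hT : Fact (0 < T)]

/-- the Fourier coefficient as a continuous linear functional on `L^1` -/
noncomputable def cfL (k : ℤ) : Lp ℂ 1 (haarAddCircle (T := T)) →L[ℂ] ℂ :=
  LinearMap.mkContinuous
    { toFun := fun f => fourierCoeff (f : AddCircle T → ℂ) k
      map_add' := by
        intro f g
        rw [fourierCoeff_congr_ae (Lp.coeFn_add f g), fourierCoeff.add (L1.integrable_coeFn f)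
          (L1.integrable_coeFn g)]
        rfl
      map_smul' := by
        intro c f
        rw [fourierCoeff_congr_ae (Lp.coeFn_smul c f), fourierCoeff.const_smul]
        rfl } 1 (by
      intro f
      rw [one_mul, L1.norm_eq_integral_norm]
      simp only [LinearMap.coe_mk, AddHom.coe_mk]
      unfold fourierCoeff
      refine (norm_integral_le_integral_norm _).trans (le_of_eq ?_)
      refine integral_congr_ae (Eventually.of_forall fun x => ?_)
      simp only []
      rw [norm_smul, norm_fourier, one_mul])

theorem cfL_apply (k : ℤ) (f : Lp ℂ 1 (haarAddCircle (T := T))) :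
    cfL k f = fourierCoeff (f : AddCircle T → ℂ) k := rfl

theorem partialS_eq (f : Lp ℂ 1 (haarAddCircle (T := T))) (N : ℕ) (x : AddCircle T) :
    partialS (f : AddCircle T → ℂ) N x = ∑ k ∈ Icc (-(N : ℤ)) (N : ℤ), cfL k f * fourier k x := rfl

theorem partialS_add (f g : Lp ℂ 1 (haarAddCircle (T := T))) (N : ℕ) (x : AddCircle T) :
    partialS ((f + g : Lp ℂ 1 (haarAddCircle (T := T))) : AddCircle T → ℂ) N x =
      partialS (f : AddCircle T → ℂ) N x + partialS (g : AddCircle T → ℂ) N x := by
  simp only [partialS_eq, map_add, add_mul, sum_add_distrib]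

theorem partialS_smul (c : ℂ) (f : Lp ℂ 1 (haarAddCircle (T := T))) (N : ℕ) (x : AddCircle T) :
    partialS ((c • f : Lp ℂ 1 (haarAddCircle (T := T))) : AddCircle T → ℂ) N x =
      c * partialS (f : AddCircle T → ℂ) N x := by
  simp only [partialS_eq, map_smul, smul_eq_mul, mul_sum, mul_assoc]

theorem continuous_partialS (N : ℕ) :
    Continuous fun p : Lp ℂ 1 (haarAddCircle (T := T)) × AddCircle T =>
      partialS (p.1 : AddCircle T → ℂ) N p.2 := by
  simp only [partialS_eq]
  refine continuous_finset_sum _ fun k _ => ?_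
  exact ((cfL k).continuous.comp continuous_fst).mul ((map_continuous (fourier k)).comp continuous_snd)

theorem continuous_partialS_left (N : ℕ) (x : AddCircle T) :
    Continuous fun f : Lp ℂ 1 (haarAddCircle (T := T)) => partialS (f : AddCircle T → ℂ) N x := by
  simp only [partialS_eq]
  refine continuous_finset_sum _ fun k _ => ?_
  exact (cfL k).continuous.mul continuous_const

theorem continuous_partialS_right (N : ℕ) (f : AddCircle T → ℂ) :
    Continuous fun x : AddCircle T => partialS f N x := by
  unfold partialS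
  (clear * -; fun_prop)

theorem partialS_congr {f g : AddCircle T → ℂ} (h : f =ᵐ[haarAddCircle] g) (N : ℕ)
    (x : AddCircle T) : partialS f N x = partialS g N x := by
  unfold partialS
  rw [fourierCoeff_congr_ae h]

theorem isClosed_levelset (f : AddCircle T → ℂ) (n : ℝ) :
    IsClosed {x : AddCircle T | ∀ N : ℕ, ‖partialS f N x‖ ≤ n} := by
  have : {x : AddCircle T | ∀ N : ℕ, ‖partialS f N x‖ ≤ n} =
      ⋂ N : ℕ, {x | ‖partialS f N x‖ ≤ n} := by
    ext x; simp only [Set.mem_ofPred_eq, Set.mem_iInter]
  rw [this]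
  exact isClosed_iInter fun N => isClosed_le (continuous_partialS_right N f).norm continuous_const

/-- the set of `f` in `L^1` with a large level set is closed -/
theorem isClosed_level (n : ℝ) (δ : ENNReal) :
    IsClosed {f : Lp ℂ 1 (haarAddCircle (T := T)) |
      δ ≤ haarAddCircle {x : AddCircle T | ∀ N : ℕ, ‖partialS (f : AddCircle T → ℂ) N x‖ ≤ n}} := by
  apply IsSeqClosed.isClosed
  intro fk f hk hlim
  simp only [Set.mem_ofPred_eq] at hk ⊢
  set E : ℕ → Set (AddCircle T) := fun k =>
    {x : AddCircle T | ∀ N : ℕ, ‖partialS (fk k : AddCircle T → ℂ) N x‖ ≤ n} with hE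
  have hEc : ∀ k, IsClosed (E k) := fun k => isClosed_levelset _ _
  set G : ℕ → Set (AddCircle T) := fun m => ⋃ k, ⋃ _ : m ≤ k, E k with hG
  have hGm : ∀ m, MeasurableSet (G m) := fun m =>
    MeasurableSet.iUnion fun k => MeasurableSet.iUnion fun _ => (hEc k).measurableSet
  have hanti : Antitone G := by
    intro m m' hmm x hx
    simp only [hG, Set.mem_iUnion] at hx ⊢
    obtain ⟨k, hk, hx⟩ := hx
    exact ⟨k, hmm.trans hk, hx⟩
  have htend := tendsto_measure_iInter_atTop (μ := haarAddCircle (T := T))
    (fun m => (hGm m).nullMeasurableSet) hanti ⟨0, measure_ne_top _ _⟩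
  have hge : δ ≤ haarAddCircle (⋂ m, G m) := by
    refine ge_of_tendsto htend (Eventually.of_forall fun m => ?_)
    refine (hk m).trans (measure_mono ?_)
    intro x hx
    simp only [hG, Set.mem_iUnion]
    exact ⟨m, le_rfl, hx⟩
  refine hge.trans (measure_mono ?_)
  intro x hx N
  simp only [hG, Set.mem_iInter, Set.mem_iUnion] at hx
  have hfreq : ∃ᶠ k in atTop, ‖partialS (fk k : AddCircle T → ℂ) N x‖ ≤ n := by
    rw [frequently_atTop]
    intro m
    obtain ⟨k, hk, hxk⟩ := hx m
    exact ⟨k, hk, hxk N⟩
  have htd : Tendsto (fun k => ‖partialS (fk k : AddCircle T → ℂ) N x‖) atTop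
      (𝓝 ‖partialS (f : AddCircle T → ℂ) N x‖) :=
    (((continuous_partialS_left N x).norm).tendsto f).comp hlim
  exact le_of_tendsto_of_frequently htd hfreq

end Vale.Agent.P091
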