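import Vale.Agent.P091.H690b.Blocks

set_option linter.all false

namespace Vale.Agent.P091

open Finset MeasureTheory AddCircle

variable {T : ℝ} [hT : Fact (0 < T)]

/-- the core construction: nonnegative blocks, one of which is large at every point -/
theorem every_core (r d D q : ℕ) (a b : ℤ → ℂ) (lam ex m : ℝ) (hq : q = 2 * D + 2 * d + 1)
    (ha0 : a 0 = 1)
    (hP : ∀ x : AddCircle T, (trigSum a d x).im = 0 ∧ 0 ≤ (trigSum a d x).re ∧
      (trigSum a d x).re ≤ ex)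
    (hκ : ∀ x : AddCircle T, (trigSum b D x).im = 0 ∧ 0 ≤ (trigSum b D x).re ∧
      (trigSum b D x).re ≤ 2)
    (hκK : ∀ x : AddCircle T, (∀ n : ℕ, n ≤ d → ‖trigSum a n x‖ ≤ lam) → 1 ≤ (trigSum b D x).re)
    (hb0 : b 0 = m) (hm0 : 0 ≤ m) (hm : m ≤ 1 / 16)
    (hlam : 0 < lam) (hr : lam ≤ 2 ^ r) (hr2 : (2 : ℝ) ^ r ≤ 2 * lam) :
    ∃ (DD : ℕ) (h : ℤ → ℂ),
      (∀ x : AddCircle T, (trigSum h DD x).im = 0 ∧ 0 ≤ (trigSum h DD x).re ∧
        (trigSum h DD x).re ≤ 4 * lam * ex + 4 * lam ^ 2) ∧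
      (∃ μ : ℝ, h 0 = μ ∧ 0 ≤ μ ∧ μ ≤ 3) ∧
      (∀ x : AddCircle T, ∃ n, n ≤ DD ∧ lam / 8 ≤ ‖trigSum h n x‖) := by
  have hqD : 2 * D + 1 ≤ q := by omega
  have hqd : 2 * d + 1 ≤ q := by omega
  have hex : 0 ≤ ex := (hP 0).2.1.trans (hP 0).2.2
  -- the product `χ_i`
  obtain ⟨X, hX⟩ : ∃ X : ℕ → AddCircle T → ℝ, X = fun i x =>
    ∏ l ∈ range i, (trigSum b D ((q ^ l) • x)).re := ⟨_, rfl⟩
  have hXc : ∀ i (x : AddCircle T), trigSum (chC b D q i) (chE D q i) x = ((X i x : ℝ) : ℂ) := by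
    intro i x
    rw [trigSum_chC b hqD, hX]
    push_cast
    refine prod_congr rfl fun l _ => ?_
    apply Complex.ext <;> simp [(hκ ((q ^ l) • x)).1]
  have hX0 : ∀ i (x : AddCircle T), 0 ≤ X i x := fun i x => by
    rw [hX]; exact prod_nonneg fun l _ => (hκ _).2.1
  have hX2 : ∀ i (x : AddCircle T), X i x ≤ 2 ^ i := by
    intro i x
    rw [hX]
    calc ∏ l ∈ range i, (trigSum b D ((q ^ l) • x)).re ≤ ∏ l ∈ range i, (2 : ℝ) :=
          prod_le_prod (fun l _ => (hκ _).2.1) fun l _ => (hκ _).2.2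
      _ = 2 ^ i := by simp
  have hX1 : ∀ i (x : AddCircle T), (∀ l < i, ∀ n : ℕ, n ≤ d → ‖trigSum a n ((q ^ l) • x)‖ ≤ lam) →
      1 ≤ X i x := by
    intro i x h
    rw [hX]
    calc (1 : ℝ) = ∏ l ∈ range i, (1 : ℝ) := by simp
      _ ≤ _ := prod_le_prod (fun _ _ => zero_le_one) fun l hl => hκK _ (h l (mem_range.1 hl))
  have hE := chE_lt (D := D) (q := q) hqD
  have hq1 : 1 ≤ q := by omega
  -- degrees and coefficients
  obtain ⟨dd, hdd⟩ : ∃ dd : ℕ → ℕ, dd = fun i => if i < r then d * q ^ i + chE D q i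
    else chE D q i := ⟨_, rfl⟩
  obtain ⟨cc, hcc⟩ : ∃ cc : ℕ → ℤ → ℂ, cc = fun i => if i < r then
    mulC a d (chC b D q i) (chE D q i) (q ^ i) else fun k => ((lam : ℝ) : ℂ) * chC b D q i k :=
    ⟨_, rfl⟩
  obtain ⟨e, he⟩ : ∃ e : ℕ, e = (d + 1) * q ^ r := ⟨_, rfl⟩
  have hde : ∀ i ≤ r, dd i ≤ e := by
    intro i hi
    have h1 := hE i
    have h2 : q ^ i ≤ q ^ r := Nat.pow_le_pow_right (by omega) hi
    have h3 : d * q ^ i ≤ d * q ^ r := Nat.mul_le_mul_left _ h2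
    rw [hdd, he]
    beta_reduce
    split_ifs
    · nlinarith only [h1, h2, h3]
    · nlinarith only [h1, h2, h3, Nat.zero_le (d * q ^ r)]
  -- values of the blocks
  obtain ⟨G, hG⟩ : ∃ G : ℕ → AddCircle T → ℝ, G = fun i x => if i < r then
    (trigSum a d ((q ^ i) • x)).re * X i x else lam * X i x := ⟨_, rfl⟩
  have hval : ∀ i, ∀ x : AddCircle T, trigSum (cc i) (dd i) x = ((G i x : ℝ) : ℂ) := by
    intro i x
    rw [hcc, hdd, hG]
    beta_reduce
    split_ifs with h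
    · rw [trigSum_mulC _ _ _ _ _ _ (by have := hE i; omega) le_rfl, hXc]
      push_cast
      congr 1
      apply Complex.ext <;> simp [(hP ((q ^ i) • x)).1]
    · rw [trigSum_smul, hXc]
      push_cast
      rfl
  have hG0 : ∀ i, ∀ x : AddCircle T, 0 ≤ G i x := by
    intro i x
    rw [hG]
    beta_reduce
    split_ifs with h
    · exact mul_nonneg (hP _).2.1 (hX0 i x)
    · exact mul_nonneg hlam.le (hX0 i x)
  have hcc0 : ∀ i, cc i 0 = if i < r then ((m ^ i : ℝ) : ℂ) else ((lam * m ^ i : ℝ) : ℂ) := by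
    intro i
    rw [hcc]
    beta_reduce
    split_ifs with h
    · rw [mulC_zero _ _ _ _ _ (by have := hE i; omega), ha0, chC_zero b hqD, hb0, one_mul]
      push_cast; rfl
    · beta_reduce
      rw [chC_zero b hqD, hb0]
      push_cast; rfl
  -- the sum
  obtain ⟨DD, hDD⟩ : ∃ DD : ℕ, (DD : ℤ) = 2 * modCen e r + e :=
    ⟨(2 * modCen e r + e).toNat, by
      rw [Int.toNat_of_nonneg]
      have := modCen_ge e r
      omega⟩
  have hw : ∀ i, ∀ x : AddCircle T,
      0 ≤ 1 + (fourier (modCen e i) x : ℂ).re / 2 + (fourier (2 * modCen e i) x : ℂ).re / 2 ∧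
      1 + (fourier (modCen e i) x : ℂ).re / 2 + (fourier (2 * modCen e i) x : ℂ).re / 2 ≤ 2 := by
    intro i x
    have h1 := fourier_two (modCen e i) x
    have h2 : ∀ k : ℤ, (fourier k x : ℂ).re ≤ 1 := fun k => by
      have := Complex.re_le_norm (fourier k x : ℂ)
      rwa [norm_fourier] at this
    have h3 := h2 (modCen e i)
    have h4 := h2 (2 * modCen e i)
    constructor
    · rw [h1]
      nlinarith only [sq_nonneg ((fourier (modCen e i) x : ℂ).re + 1 / 4)]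
    · linarith
  have hfull : ∀ x : AddCircle T, trigSum (modBlk r dd cc e) DD x =
      ((∑ i ∈ range (r + 1), (1 + (fourier (modCen e i) x : ℂ).re / 2 +
        (fourier (2 * modCen e i) x : ℂ).re / 2) * G i x : ℝ) : ℂ) := by
    intro x
    rw [trigSum_blk_full r dd cc e hde DD (by omega) x]
    simp only [hval]
    push_cast
    rfl
  refine ⟨DD, modBlk r dd cc e, ?_, ?_, ?_⟩
  · intro x
    rw [hfull, Complex.ofReal_im, Complex.ofReal_re]
    refine ⟨rfl, sum_nonneg fun i _ => mul_nonneg (hw i x).1 (hG0 i x), ?_⟩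
    have h1 : ∀ i ∈ range r, (1 + (fourier (modCen e i) x : ℂ).re / 2 +
        (fourier (2 * modCen e i) x : ℂ).re / 2) * G i x ≤ 2 * (ex * 2 ^ i) := by
      intro i hi
      rw [mem_range] at hi
      have h2 := hw i x
      have h3 : G i x ≤ ex * 2 ^ i := by
        rw [hG]
        beta_reduce
        rw [if_pos hi]
        exact mul_le_mul (hP _).2.2 (hX2 i x) (hX0 i x) hex
      have h4 := hG0 i x
      calc _ ≤ 2 * G i x := mul_le_mul_of_nonneg_right h2.2 h4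
        _ ≤ _ := by linarith
    have h2 : (1 + (fourier (modCen e r) x : ℂ).re / 2 +
        (fourier (2 * modCen e r) x : ℂ).re / 2) * G r x ≤ 2 * (lam * 2 ^ r) := by
      have h2 := hw r x
      have h3 : G r x ≤ lam * 2 ^ r := by
        rw [hG]
        beta_reduce
        rw [if_neg (lt_irrefl r)]
        exact mul_le_mul_of_nonneg_left (hX2 r x) hlam.le
      have h4 := hG0 r x
      calc _ ≤ 2 * G r x := mul_le_mul_of_nonneg_right h2.2 h4
        _ ≤ _ := by linarith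
    have h3 : ∑ i ∈ range r, 2 * (ex * (2 : ℝ) ^ i) ≤ 2 * (ex * 2 ^ r) := by
      rw [← mul_sum, ← mul_sum]
      have h4 : ∑ i ∈ range r, (2 : ℝ) ^ i ≤ 2 ^ r := by
        rw [geom_sum_eq (by norm_num)]
        norm_num
      gcongr
    rw [sum_range_succ]
    have h4 := sum_le_sum h1
    have h5 : 2 * (ex * (2 : ℝ) ^ r) ≤ 4 * lam * ex := by
      calc 2 * (ex * (2 : ℝ) ^ r) ≤ 2 * (ex * (2 * lam)) := by gcongr
        _ = 4 * lam * ex := by ring
    have h6 : 2 * (lam * (2 : ℝ) ^ r) ≤ 4 * lam ^ 2 := by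
      calc 2 * (lam * (2 : ℝ) ^ r) ≤ 2 * (lam * (2 * lam)) := by gcongr
        _ = 4 * lam ^ 2 := by ring
    linarith
  · rw [modBlk_zero r dd cc e hde]
    refine ⟨∑ i ∈ range r, m ^ i + lam * m ^ r, ?_, ?_, ?_⟩
    · rw [sum_range_succ, hcc0 r, if_neg (lt_irrefl r)]
      push_cast
      congr 1
      refine sum_congr rfl fun i hi => ?_
      rw [mem_range] at hi
      rw [hcc0 i, if_pos hi]
      push_cast; rfl
    · exact add_nonneg (sum_nonneg fun i _ => pow_nonneg hm0 i) (mul_nonneg hlam.le (pow_nonneg hm0 r))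
    · have h1 : ∑ i ∈ range r, m ^ i ≤ 2 := by
        calc ∑ i ∈ range r, m ^ i ≤ ∑ i ∈ range r, (1 / 2 : ℝ) ^ i :=
              sum_le_sum fun i _ => by gcongr; linarith
          _ ≤ 2 := by
            rw [geom_sum_eq (by norm_num)]
            have : (0 : ℝ) ≤ (1 / 2) ^ r := by positivity
            norm_num
            linarith
      have h2 : lam * m ^ r ≤ 1 := by
        calc lam * m ^ r ≤ 2 ^ r * (1 / 16) ^ r := by gcongr
          _ = (1 / 8) ^ r := by rw [← mul_pow]; norm_num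
          _ ≤ 1 := pow_le_one₀ (by norm_num) (by norm_num)
      linarith
  · intro x
    have hmain : ∃ i, i ≤ r ∧ ∃ n, n ≤ dd i ∧ lam ≤ ‖trigSum (cc i) n x‖ := by
      by_cases hex : ∃ i, i < r ∧ ¬ (∀ n : ℕ, n ≤ d → ‖trigSum a n ((q ^ i) • x)‖ ≤ lam)
      · classical
        obtain ⟨h1, h2⟩ := Nat.find_spec hex
        have h3 : ∀ l, l < Nat.find hex → ∀ n : ℕ, n ≤ d → ‖trigSum a n ((q ^ l) • x)‖ ≤ lam := by
          intro l hl
          have h4 := Nat.find_min hex hl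
          by_contra hcon
          exact h4 ⟨hl.trans h1, hcon⟩
        generalize Nat.find hex = i at h1 h2 h3
        push Not at h2
        obtain ⟨n, hn, h2⟩ := h2
        refine ⟨i, h1.le, n * q ^ i + chE D q i, ?_, ?_⟩
        · rw [hdd]
          beta_reduce
          rw [if_pos h1]
          have := Nat.mul_le_mul_right (q ^ i) hn
          omega
        · rw [hcc]
          beta_reduce
          rw [if_pos h1, trigSum_mulC _ _ _ _ _ _ (by have := hE i; omega) hn, hXc, norm_mul,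
            Complex.norm_real, Real.norm_of_nonneg (hX0 i x)]
          have h5 := hX1 i x h3
          calc lam = lam * 1 := by ring
            _ ≤ _ := by gcongr
      · push Not at hex
        refine ⟨r, le_rfl, dd r, le_rfl, ?_⟩
        rw [hval, Complex.norm_real, Real.norm_of_nonneg (hG0 r x), hG]
        beta_reduce
        rw [if_neg (lt_irrefl r)]
        have h5 := hX1 r x hex
        calc lam = lam * 1 := by ring
          _ ≤ _ := mul_le_mul_of_nonneg_left h5 hlam.le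
    obtain ⟨i, hi, n, hn, hbig⟩ := hmain
    obtain ⟨N, hN, hN2⟩ := exists_window r dd cc e hde i hi n hn x
    exact ⟨N, by omega, le_trans (by linarith) hN2⟩

/-- **Main lemma, everywhere form**: nonnegative polynomials of mean at most one and height at most
`exp (ℓ ^ 2)`, with a partial sum of size `c ℓ` at every point. -/
theorem main_lemma_everywhere : ∃ c : ℝ, 0 < c ∧ ∃ Λ : ℝ, 0 < Λ ∧ ∀ ℓ : ℝ, Λ ≤ ℓ →
    ∃ (d : ℕ) (a : ℤ → ℂ),
      (∀ x : AddCircle T, (trigSum a d x).im = 0 ∧ 0 ≤ (trigSum a d x).re ∧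
        (trigSum a d x).re ≤ Real.exp (ℓ ^ 2)) ∧
      (∃ μ : ℝ, a 0 = μ ∧ 0 ≤ μ ∧ μ ≤ 1) ∧
      (∀ x : AddCircle T, ∃ n, n ≤ d ∧ c * ℓ ≤ ‖trigSum a n x‖) := by
  obtain ⟨c, hc, Λ, hΛ, hML⟩ := main_lemma_three (T := T) (1 / 32) (by norm_num)
  refine ⟨c / 192, by positivity, max (4 * Λ) (max (8 / c) c), by positivity, fun ℓ hℓ => ?_⟩
  have h1 : 4 * Λ ≤ ℓ := (le_max_left _ _).trans hℓ
  have h2 : 8 / c ≤ ℓ := (le_max_left _ _).trans ((le_max_right _ _).trans hℓ)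
  have h3 : c ≤ ℓ := (le_max_right _ _).trans ((le_max_right _ _).trans hℓ)
  obtain ⟨L, hL1, hL2, d, a, hsupp, ha0, haP, -, hbad⟩ := hML (ℓ / 4) (by linarith)
  have hℓ0 : 0 < ℓ := by linarith
  have hL0 : 0 < L := by linarith
  obtain ⟨lam, hlam⟩ : ∃ lam : ℝ, lam = c / 2 * L := ⟨_, rfl⟩
  have hlam1 : 1 ≤ lam := by
    rw [div_le_iff₀ hc] at h2
    rw [hlam]
    nlinarith
  have hac : ∀ k, ‖a k‖ ≤ 1 := fun k => coef_le_one (T := T) a d hsupp ha0
    (fun x => ⟨(haP x).1, (haP x).2.1⟩) k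
  obtain ⟨b, hb1, hb2, m, hb0, hm0, hm⟩ := exists_kappa (T := T) a d _ rfl lam hlam1 hac (1 / 32)
    (by norm_num) (by
      refine (measure_mono ?_).trans hbad
      intro x hx n hn
      have h4 := hx n hn
      rw [hlam] at h4
      linarith)
  obtain ⟨r, hr1, hr2⟩ := exists_nat_pow_near hlam1 (by norm_num : (1 : ℝ) < 2)
  obtain ⟨DD, h, hh1, ⟨μ, hμ, hμ0, hμ3⟩, hh3⟩ := every_core (T := T) (r + 1) d
    (2 * (2 * d + 1) ^ 4) _ a b lam (Real.exp (L ^ 2)) m rfl ha0 haP hb1 hb2 hb0 hm0 (by linarith)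
    (by linarith) hr2.le (by rw [pow_succ]; linarith)
  refine ⟨DD, fun k => ((1 / 3 : ℝ) : ℂ) * h k, ?_, ⟨μ / 3, ?_, by positivity, by linarith⟩, ?_⟩
  · intro x
    obtain ⟨g1, g2, g3⟩ := hh1 x
    have g4 : trigSum (fun k => ((1 / 3 : ℝ) : ℂ) * h k) DD x =
        ((1 / 3 * (trigSum h DD x).re : ℝ) : ℂ) := by
      rw [trigSum_smul]
      apply Complex.ext <;> simp [g1]
    rw [g4, Complex.ofReal_im, Complex.ofReal_re]
    refine ⟨rfl, by positivity, ?_⟩
    have k1 : lam ≤ c / 4 * ℓ := by rw [hlam]; nlinarith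
    have k2 : L ^ 2 ≤ ℓ ^ 2 / 4 := by nlinarith
    have k3 : Real.exp (L ^ 2) ≤ Real.exp (ℓ ^ 2 / 2) := by gcongr; nlinarith
    have k4 : ℓ ^ 2 / 2 + 1 ≤ Real.exp (ℓ ^ 2 / 2) := Real.add_one_le_exp _
    have k5 : Real.exp (ℓ ^ 2) = Real.exp (ℓ ^ 2 / 2) * Real.exp (ℓ ^ 2 / 2) := by
      rw [← Real.exp_add]; ring_nf
    obtain ⟨y, hy⟩ : ∃ y : ℝ, y = Real.exp (ℓ ^ 2 / 2) := ⟨_, rfl⟩
    rw [← hy] at k3 k4 k5
    have k6 : 4 * lam ≤ ℓ ^ 2 := by nlinarith
    have hlam0 : 0 < lam := by linarith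
    have k7 : 4 * lam * Real.exp (L ^ 2) ≤ 2 * y * y := by
      have : 4 * lam ≤ 2 * y := by linarith
      have hy0 : 0 ≤ y := by rw [hy]; positivity
      gcongr
    have k8 : 4 * lam ^ 2 ≤ y * y := by nlinarith
    rw [k5]
    linarith
  · simp only [hμ]
    push_cast
    ring
  · intro x
    obtain ⟨n, hn, hn2⟩ := hh3 x
    refine ⟨n, hn, ?_⟩
    rw [trigSum_smul, norm_mul, Complex.norm_real, Real.norm_of_nonneg (by norm_num)]
    have : c / 8 * ℓ ≤ lam := by rw [hlam]; nlinarith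
    linarith

end Vale.Agent.P091
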