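import Vale.Agent.P091.H690b.Space

set_option linter.all false

namespace Vale.Agent.P091

open Finset MeasureTheory AddCircle Filter Topology

variable {T : ℝ} [hT : Fact (0 < T)]

/-- **Category form, everywhere.** -/
theorem generic_everywhere {X : Type*} [AddCommGroup X] [Module ℂ X] [TopologicalSpace X]
    [IsTopologicalAddGroup X] [ContinuousSMul ℂ X]
    (J : X →L[ℂ] Lp ℂ 1 (haarAddCircle (T := T))) (ψ : ℕ → ℝ) (c : ℝ) (hc : 0 < c)
    (hψ : ∀ N, c ≤ ψ N)
    (hdense : Dense {g : X | ∃ C : ℝ, ∀ (N : ℕ) (x : AddCircle T),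
      ‖partialS (J g : AddCircle T → ℂ) N x‖ ≤ C})
    (g₁ : X) (hg₁ : ∀ x : AddCircle T, ¬ BddAbove (Set.range fun N : ℕ =>
      ‖partialS (J g₁ : AddCircle T → ℂ) N x‖ / ψ N)) :
    {g : X | ∀ x : AddCircle T, ¬ BddAbove (Set.range fun N : ℕ =>
      ‖partialS (J g : AddCircle T → ℂ) N x‖ / ψ N)} ∈ residual X := by
  have hψ0 : ∀ N, 0 < ψ N := fun N => hc.trans_le (hψ N)
  set G : ℕ → Set X := fun n => {g : X | ∀ x : AddCircle T, ∃ N : ℕ,
    n * ψ N < ‖partialS (J g : AddCircle T → ℂ) N x‖} with hG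
  have hopen : ∀ n, IsOpen (G n) := by
    intro n
    rw [← isClosed_compl_iff]
    have h1 : (G n)ᶜ = Prod.fst '' {p : X × AddCircle T | ∀ N : ℕ,
        ‖partialS (J p.1 : AddCircle T → ℂ) N p.2‖ ≤ n * ψ N} := by
      ext g
      simp only [hG, Set.mem_compl_iff, Set.mem_ofPred_eq, Set.mem_image, Prod.exists,
        exists_and_right, exists_eq_right]
      push Not
      rfl
    rw [h1]
    apply isClosedMap_fst_of_compactSpace
    have h2 : {p : X × AddCircle T | ∀ N : ℕ,
        ‖partialS (J p.1 : AddCircle T → ℂ) N p.2‖ ≤ n * ψ N} =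
        ⋂ N : ℕ, {p : X × AddCircle T | ‖partialS (J p.1 : AddCircle T → ℂ) N p.2‖ ≤ n * ψ N} := by
      ext p; simp only [Set.mem_ofPred_eq, Set.mem_iInter]
    rw [h2]
    refine isClosed_iInter fun N => isClosed_le ?_ continuous_const
    have h3 : Continuous fun p : X × AddCircle T => (J p.1, p.2) :=
      (J.continuous.comp continuous_fst).prodMk continuous_snd
    exact ((continuous_partialS (T := T) N).comp h3).norm
  have hden : ∀ n, Dense (G n) := by
    intro n
    rw [dense_iff_inter_open]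
    intro U hU hUne
    obtain ⟨h, hhU, C, hC⟩ := hdense.inter_open_nonempty U hU hUne
    -- small multiple of `g₁`
    have hcont : Continuous fun δ : ℝ => h + ((δ : ℝ) : ℂ) • g₁ := by fun_prop
    have hnhd : (fun δ : ℝ => h + ((δ : ℝ) : ℂ) • g₁) ⁻¹' U ∈ 𝓝 (0 : ℝ) := by
      apply (hU.preimage hcont).mem_nhds
      simpa using hhU
    obtain ⟨r, hr, hball⟩ := Metric.mem_nhds_iff.1 hnhd
    have hδ : (r / 2) ∈ Metric.ball (0 : ℝ) r := by
      rw [Metric.mem_ball, Real.dist_eq, sub_zero, abs_of_pos (by positivity)]; linarith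
    refine ⟨h + ((r / 2 : ℝ) : ℂ) • g₁, hball hδ, ?_⟩
    intro x
    have h1 := hg₁ x
    rw [not_bddAbove_iff] at h1
    obtain ⟨_, ⟨N, rfl⟩, hN⟩ := h1 ((n + |C| / c) / (r / 2))
    refine ⟨N, ?_⟩
    simp only [] at hN
    rw [lt_div_iff₀ (hψ0 N), div_mul_eq_mul_div, div_lt_iff₀ (by positivity)] at hN
    rw [map_add, map_smul, partialS_add, partialS_smul]
    have h2 := norm_sub_le (partialS (J h : AddCircle T → ℂ) N x +
      ((r / 2 : ℝ) : ℂ) * partialS (J g₁ : AddCircle T → ℂ) N x) (partialS (J h : AddCircle T → ℂ) N x)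
    rw [add_sub_cancel_left, norm_mul, Complex.norm_real, Real.norm_of_nonneg (by positivity)] at h2
    have h3 := hC N x
    have h4 : |C| ≤ |C| / c * ψ N := by
      rw [div_mul_eq_mul_div, le_div_iff₀ hc]
      exact mul_le_mul_of_nonneg_left (hψ N) (abs_nonneg C)
    have h5 := le_abs_self C
    have h6 : (n + |C| / c) * ψ N = n * ψ N + |C| / c * ψ N := by ring
    rw [h6] at hN
    linarith
  have hres : ∀ᶠ g in residual X, ∀ n, g ∈ G n :=
    eventually_countable_forall.2 fun n => residual_of_dense_open (hopen n) (hden n)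
  filter_upwards [hres] with g hg
  intro x
  rw [not_bddAbove_iff]
  intro b
  obtain ⟨n, hn⟩ := exists_nat_ge b
  obtain ⟨N, hN⟩ := hg n x
  refine ⟨_, ⟨N, rfl⟩, ?_⟩
  simp only []
  rw [lt_div_iff₀ (hψ0 N)]
  have := mul_le_mul_of_nonneg_right hn (hψ0 N).le
  linarith

/-- the dense set in `L^1` -/
theorem dense_nice : Dense {g : Lp ℂ 1 (haarAddCircle (T := T)) | ∃ C : ℝ,
    ∀ (N : ℕ) (x : AddCircle T), ‖partialS (g : AddCircle T → ℂ) N x‖ ≤ C} := by
  have h1 := span_fourierLp_closure_eq_top (T := T) (p := 1) (by simp)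
  have h2 : Dense ((Submodule.span ℂ (Set.range (@fourierLp T hT 1 _)) :
      Submodule ℂ (Lp ℂ 1 (haarAddCircle (T := T)))) : Set (Lp ℂ 1 (haarAddCircle (T := T)))) := by
    rw [← Submodule.dense_iff_topologicalClosure_eq_top] at h1
    exact h1
  refine h2.mono ?_
  intro g hg
  rw [SetLike.mem_coe] at hg
  induction hg using Submodule.span_induction with
  | mem g hg =>
    obtain ⟨n, rfl⟩ := hg
    refine ⟨1, fun N x => ?_⟩
    rw [partialS_congr (coeFn_fourierLp 1 n)]
    unfold partialS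
    rw [fourierCoeff_fourier]
    have h3 : ∀ k ∈ Icc (-(N : ℤ)) (N : ℤ), (Pi.single n 1 : ℤ → ℂ) k * (fourier k x : ℂ) =
        if k = n then fourier n x else 0 := by
      intro k _
      rw [Pi.single_apply]
      split_ifs with h
      · rw [h, one_mul]
      · rw [zero_mul]
    rw [sum_congr rfl h3, sum_ite_eq']
    split_ifs
    · rw [norm_fourier]
    · simp
  | zero =>
    refine ⟨0, fun N x => ?_⟩
    have h3 : partialS ((0 : Lp ℂ 1 (haarAddCircle (T := T))) : AddCircle T → ℂ) N x = 0 := by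
      rw [partialS_eq]; simp
    rw [h3, norm_zero]
  | add f g _ _ hf hg =>
    obtain ⟨C, hC⟩ := hf
    obtain ⟨D, hD⟩ := hg
    refine ⟨C + D, fun N x => ?_⟩
    rw [partialS_add]
    exact (norm_add_le _ _).trans (add_le_add (hC N x) (hD N x))
  | smul c g _ hg =>
    obtain ⟨C, hC⟩ := hg
    refine ⟨‖c‖ * C, fun N x => ?_⟩
    rw [partialS_smul, norm_mul]
    exact mul_le_mul_of_nonneg_left (hC N x) (norm_nonneg c)

/-- quasi-every `f` in `L^1`, growth at every point -/
theorem generic_growth (ψ : ℕ → ℝ) (c : ℝ) (hc : 0 < c) (hψ : ∀ N, c ≤ ψ N)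
    (hlim : Tendsto (fun N : ℕ => ψ N / Real.sqrt (Real.log N)) atTop (𝓝 0)) :
    {f : Lp ℂ 1 (haarAddCircle (T := T)) | ∀ x : AddCircle T, ¬ BddAbove (Set.range fun N : ℕ =>
      ‖partialS (f : AddCircle T → ℂ) N x‖ / ψ N)} ∈
      residual (Lp ℂ 1 (haarAddCircle (T := T))) := by
  obtain ⟨f, hf, -, hf3⟩ := growth_pure (T := T) ψ (fun N => hc.trans_le (hψ N)) hlim
  have hcongr : ∀ N x, partialS ((hf.toL1 f : Lp ℂ 1 (haarAddCircle (T := T))) : AddCircle T → ℂ) N x =
      partialS f N x := fun N x => partialS_congr hf.coeFn_toL1 N x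
  refine generic_everywhere (ContinuousLinearMap.id ℂ (Lp ℂ 1 (haarAddCircle (T := T)))) ψ c hc hψ
    dense_nice (hf.toL1 f) ?_
  intro x
  simp only [ContinuousLinearMap.id_apply, hcongr]
  exact hf3 x

/-- quasi-every `f` in `L^1`, growth at every point, every positive sequence -/
theorem generic_growth_pos (ψ : ℕ → ℝ) (hψ : ∀ N, 0 < ψ N)
    (hlim : Tendsto (fun N : ℕ => ψ N / Real.sqrt (Real.log N)) atTop (𝓝 0)) :
    {f : Lp ℂ 1 (haarAddCircle (T := T)) | ∀ x : AddCircle T, ¬ BddAbove (Set.range fun N : ℕ =>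
      ‖partialS (f : AddCircle T → ℂ) N x‖ / ψ N)} ∈
      residual (Lp ℂ 1 (haarAddCircle (T := T))) := by
  have hinv : Tendsto (fun N : ℕ => 1 / Real.sqrt (Real.log N)) atTop (𝓝 0) := by
    have h1 : Tendsto (fun N : ℕ => Real.sqrt (Real.log N)) atTop atTop :=
      Real.tendsto_sqrt_atTop.comp (Real.tendsto_log_atTop.comp tendsto_natCast_atTop_atTop)
    refine h1.inv_tendsto_atTop.congr fun N => ?_
    rw [Pi.inv_apply, one_div]
  have h := generic_growth (T := T) (fun N => ψ N + 1) 1 one_pos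
    (fun N => by have := (hψ N).le; linarith) (by
      have h2 := hlim.add hinv
      rw [add_zero] at h2
      refine h2.congr fun N => ?_
      rw [add_div])
  filter_upwards [h] with f hf
  intro x hx
  refine hf x ?_
  obtain ⟨b, hb⟩ := hx
  refine ⟨b, ?_⟩
  rintro _ ⟨N, rfl⟩
  refine le_trans ?_ (hb ⟨N, rfl⟩)
  simp only []
  exact div_le_div_of_nonneg_left (norm_nonneg _) (hψ N) (by linarith)

end Vale.Agent.P091
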