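import Vale.Agent.P091.H690.Glide2

set_option linter.all false

namespace Vale.Agent.P091

open Finset MeasureTheory AddCircle

variable {T : ℝ} [hT : Fact (0 < T)]

/-- gliding hump with modulated blocks, all frequencies positive -/
theorem glide_pos (d : ℕ → ℕ) (b : ℕ → ℤ → ℂ)
    (hsum : Summable fun j => ∫ x, ‖(trigSum (b j) (d j) x : ℂ)‖ ∂(haarAddCircle (T := T))) :
    ∃ f : AddCircle T → ℂ, Integrable f haarAddCircle ∧
      (∀ k : ℤ, k ≤ 0 → fourierCoeff f k = 0) ∧
      (∀ x, Summable (fun j => ‖trigSum (b j) (d j) x‖) →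
        ‖f x‖ ≤ ∑' j, ‖trigSum (b j) (d j) x‖) ∧
      ∀ (j n : ℕ), n ≤ d j → ∀ x, ∃ N₁ N₂ : ℕ, ‖(trigSum (b j) n x : ℂ)‖ =
          ‖partialS f N₂ x - partialS f N₁ x‖ := by
  obtain ⟨C, hC⟩ : ∃ C : ℕ → ℕ, C = blockCentre d := ⟨_, rfl⟩
  obtain ⟨lo, hlo⟩ : ∃ lo : ℕ → ℤ, lo = fun p => (C p : ℤ) - d p := ⟨_, rfl⟩
  obtain ⟨hi, hhi⟩ : ∃ hi : ℕ → ℤ, hi = fun p => (C p : ℤ) + d p := ⟨_, rfl⟩
  obtain ⟨e, he⟩ : ∃ e : ℕ → ℤ → ℂ, e = fun p k => b p (k - C p) := ⟨_, rfl⟩
  have hCv : ∀ p, C p = blockStart d p + d p + 1 := fun p => by rw [hC]; rfl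
  have hsum_shift : ∀ (p : ℕ) (n : ℕ) (x : AddCircle T),
      ∑ k ∈ Icc ((C p : ℤ) - n) ((C p : ℤ) + n), e p k * (fourier k x : ℂ) =
        fourier (C p : ℤ) x * trigSum (b p) n x := by
    intro p n x
    unfold trigSum
    rw [mul_sum]
    refine sum_nbij' (fun k => k - C p) (fun k => k + C p) ?_ ?_ ?_ ?_ ?_
    · intro k hk
      simp only [mem_Icc] at hk ⊢
      omega
    · intro k hk
      simp only [mem_Icc] at hk ⊢
      omega
    · intro k _; simp
    · intro k _; simp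
    · intro k _
      rw [he]
      simp only []
      have h1 : (fourier k x : ℂ) = fourier (C p : ℤ) x * fourier (k - C p) x := by
        rw [← fourier_add]; congr 2; ring
      rw [h1]; ring
  have hgb : ∀ (p : ℕ) (x : AddCircle T), gb lo hi e p x =
      fourier (C p : ℤ) x * trigSum (b p) (d p) x := by
    intro p x
    unfold gb
    rw [hlo, hhi]
    exact hsum_shift p (d p) x
  have hnorm : ∀ (p : ℕ) (x : AddCircle T), ‖(gb lo hi e p x : ℂ)‖ = ‖(trigSum (b p) (d p) x : ℂ)‖ := by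
    intro p x
    rw [hgb, norm_mul, fourier_apply, Circle.norm_coe, one_mul]
  have hlo1 : ∀ p, 1 ≤ lo p := by
    intro p
    rw [hlo]
    have := hCv p
    simp only []
    omega
  have hdisj : ∀ p p' k, lo p ≤ k → k ≤ hi p → lo p' ≤ k → k ≤ hi p' → p = p' := by
    have key : ∀ p p' k, p < p' → lo p ≤ k → k ≤ hi p → lo p' ≤ k → k ≤ hi p' → False := by
      intro p p' k hlt h1 h2 h3 h4
      rw [hhi] at h2
      rw [hlo] at h3
      simp only [] at h2 h3
      have h5 := hCv p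
      have h6 := hCv p'
      have h7 : blockStart d (p + 1) ≤ blockStart d p' := blockStart_mono d hlt
      rw [blockStart_succ] at h7
      omega
    intro p p' k h1 h2 h3 h4
    rcases Nat.lt_trichotomy p p' with h | h | h
    · exact (key p p' k h h1 h2 h3 h4).elim
    · exact h
    · exact (key p' p k h h3 h4 h1 h2).elim
  obtain ⟨f, hf1, hf2, hf3, hf4⟩ := glide_gen (T := T) lo hi e hlo1 hdisj (by
    simpa only [hnorm] using hsum)
  refine ⟨f, hf1, hf2, fun x hx => ?_, fun j n hn x => ?_⟩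
  · have := hf3 x (by simpa only [hnorm] using hx)
    simpa only [hnorm] using this
  · have h1 := hCv j
    have h2 := hf4 j (C j - n - 1) (C j + n) (by
      rw [hlo]; simp only []; omega) (by omega) (by rw [hhi]; simp only []; push_cast; omega) x
    refine ⟨C j - n - 1, C j + n, ?_⟩
    rw [h2]
    have h3 : (((C j - n - 1 : ℕ) : ℤ) + 1) = (C j : ℤ) - n := by omega
    rw [h3]
    push_cast
    rw [hsum_shift, norm_mul, fourier_apply, Circle.norm_coe, one_mul]

end Vale.Agent.P091
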