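import Vale.Agent.P091.H690b.Sets

set_option linter.all false

namespace Vale.Agent.P091

open Finset MeasureTheory AddCircle Filter Topology

variable {T : ℝ} [hT : Fact (0 < T)]

/-- a trigonometric polynomial is equal to its partial sums of large order -/
theorem span_partialS (p : C(AddCircle T, ℂ))
    (hp : p ∈ Submodule.span ℂ (Set.range (@fourier T))) :
    ∃ d₀ : ℕ, ∀ d : ℕ, d₀ ≤ d → ∀ x, partialS (p : AddCircle T → ℂ) d x = p x := by
  induction hp using Submodule.span_induction with
  | mem g hg =>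
    obtain ⟨n, rfl⟩ := hg
    refine ⟨n.natAbs, fun d hd x => ?_⟩
    unfold partialS
    have h1 : fourierCoeff (fourier n : AddCircle T → ℂ) = Pi.single n 1 := fourierCoeff_fourier n
    rw [h1]
    have h3 : ∀ k ∈ Icc (-(d : ℤ)) (d : ℤ), (Pi.single n 1 : ℤ → ℂ) k * (fourier k x : ℂ) =
        if k = n then fourier n x else 0 := by
      intro k _
      rw [Pi.single_apply]
      split_ifs with h
      · rw [h, one_mul]
      · rw [zero_mul]
    rw [sum_congr rfl h3, sum_ite_eq', if_pos]
    rw [mem_Icc]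
    omega
  | zero =>
    refine ⟨0, fun d _ x => ?_⟩
    have h1 : fourierCoeff (((0 : C(AddCircle T, ℂ))) : AddCircle T → ℂ) = 0 := by
      ext k
      unfold fourierCoeff
      simp
    unfold partialS
    rw [h1]
    simp
  | add f g _ _ hf hg =>
    obtain ⟨d₁, h₁⟩ := hf
    obtain ⟨d₂, h₂⟩ := hg
    refine ⟨max d₁ d₂, fun d hd x => ?_⟩
    rw [ContinuousMap.add_apply, ← h₁ d ((le_max_left _ _).trans hd) x,
      ← h₂ d ((le_max_right _ _).trans hd) x]
    unfold partialS
    rw [← sum_add_distrib]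
    refine sum_congr rfl fun k _ => ?_
    have h3 : fourierCoeff ((f + g : C(AddCircle T, ℂ)) : AddCircle T → ℂ) k =
        fourierCoeff (f : AddCircle T → ℂ) k + fourierCoeff (g : AddCircle T → ℂ) k := by
      rw [ContinuousMap.coe_add, fourierCoeff.add (integrable_of_continuous f.continuous)
        (integrable_of_continuous g.continuous)]
      rfl
    rw [h3, add_mul]
  | smul c g _ hg =>
    obtain ⟨d₁, h₁⟩ := hg
    refine ⟨d₁, fun d hd x => ?_⟩
    rw [ContinuousMap.smul_apply, ← h₁ d hd x]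
    unfold partialS
    rw [smul_sum]
    refine sum_congr rfl fun k _ => ?_
    have h3 : fourierCoeff ((c • g : C(AddCircle T, ℂ)) : AddCircle T → ℂ) k =
        c * fourierCoeff (g : AddCircle T → ℂ) k := by
      rw [ContinuousMap.coe_smul, fourierCoeff.const_smul]
      rfl
    rw [h3, smul_eq_mul, mul_assoc]

/-- polynomial blocks concentrated on sets of measure `2 t` -/
theorem exists_lorentz_block : ∃ c : ℝ, 0 < c ∧ ∃ t₀ : ℝ, 0 < t₀ ∧ ∀ t : ℝ, 0 < t → t < t₀ →
    ∀ δ : ℝ, 0 < δ → ∃ (d : ℕ) (a : ℤ → ℂ) (H : Set (AddCircle T)), MeasurableSet H ∧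
      haarAddCircle H ≤ ENNReal.ofReal (2 * t) ∧
      (∀ x : AddCircle T, ‖trigSum a d x‖ ≤ 2) ∧
      (∀ x : AddCircle T, x ∉ H → ‖trigSum a d x‖ ≤ δ) ∧
      (∀ x : AddCircle T, ∃ n : ℕ, n ≤ d ∧ c * (t * Real.sqrt (Real.log (1 / t))) ≤
        ‖trigSum a n x‖) := by
  obtain ⟨c, hc, t₀, ht₀, hset⟩ := exists_set_bdd (T := T)
  refine ⟨c / 2, by positivity, min t₀ 1, lt_min ht₀ one_pos, fun t ht htt δ hδ => ?_⟩
  have ht1 : t < 1 := htt.trans_le (min_le_right _ _)
  obtain ⟨E, hEm, hEt, D, hD⟩ := hset t ht (htt.trans_le (min_le_left _ _))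
  obtain ⟨ω, hω⟩ : ∃ ω : ℝ, ω = t * Real.sqrt (Real.log (1 / t)) := ⟨_, rfl⟩
  have hlog : 0 < Real.log (1 / t) := by
    apply Real.log_pos
    rw [lt_div_iff₀ ht]; linarith
  have hω0 : 0 < ω := by rw [hω]; positivity
  rw [← hω] at hD ⊢
  obtain ⟨κ, hκ⟩ : ∃ κ : ℝ, κ = min (min (t * δ / 2) (δ / 2)) (min 1 (c / 2 * ω / (2 * (2 * D + 1)))) :=
    ⟨_, rfl⟩
  have hκ0 : 0 < κ := by rw [hκ]; positivity
  have hκ1 : κ ≤ t * δ / 2 := by rw [hκ]; exact (min_le_left _ _).trans (min_le_left _ _)
  have hκ2 : κ ≤ δ / 2 := by rw [hκ]; exact (min_le_left _ _).trans (min_le_right _ _)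
  have hκ3 : κ ≤ 1 := by rw [hκ]; exact (min_le_right _ _).trans (min_le_left _ _)
  have hκ4 : (2 * D + 1) * (2 * κ) ≤ c / 2 * ω := by
    have h1 : κ ≤ c / 2 * ω / (2 * (2 * D + 1)) := by
      rw [hκ]; exact (min_le_right _ _).trans (min_le_right _ _)
    rw [le_div_iff₀ (by positivity)] at h1
    linarith
  -- the continuous function
  have hind : Integrable (E.indicator fun _ => (1 : ℝ)) (haarAddCircle (T := T)) :=
    (integrable_const (1 : ℝ)).indicator hEm
  obtain ⟨g, hg, hgi⟩ := hind.exists_boundedContinuous_integral_sub_le hκ0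
  obtain ⟨u, hu⟩ : ∃ u : AddCircle T → ℝ, u = fun x => max 0 (min 1 (g x)) := ⟨_, rfl⟩
  have huc : Continuous u := by
    rw [hu]
    exact continuous_const.max (continuous_const.min g.continuous)
  have hu0 : ∀ x, 0 ≤ u x := fun x => by rw [hu]; exact le_max_left _ _
  have hu1 : ∀ x, u x ≤ 1 := fun x => by
    rw [hu]; exact max_le zero_le_one (min_le_left _ _)
  have hue : ∀ x, |(E.indicator fun _ => (1 : ℝ)) x - u x| ≤
      ‖(E.indicator fun _ => (1 : ℝ)) x - g x‖ := by
    intro x
    rw [hu, Real.norm_eq_abs]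
    by_cases hx : x ∈ E
    · rw [Set.indicator_of_mem hx]
      beta_reduce
      rcases le_total 1 (g x) with h | h
      · rw [min_eq_left h, max_eq_right zero_le_one]; simp
      · rw [min_eq_right h]
        rcases le_total 0 (g x) with h' | h'
        · rw [max_eq_right h']
        · rw [max_eq_left h', sub_zero, abs_one, abs_of_nonneg (by linarith)]; linarith
    · rw [Set.indicator_of_notMem hx]
      beta_reduce
      rcases le_total 1 (g x) with h | h
      · rw [min_eq_left h, max_eq_right zero_le_one, zero_sub, zero_sub, abs_neg, abs_neg, abs_one,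
          abs_of_nonneg (by linarith)]; exact h
      · rw [min_eq_right h]
        rcases le_total 0 (g x) with h' | h'
        · rw [max_eq_right h']
        · rw [max_eq_left h', sub_zero, abs_zero]; exact abs_nonneg _
  have hui : Integrable u (haarAddCircle (T := T)) := integrable_of_continuous huc
  have huint : ∫ x, |(E.indicator fun _ => (1 : ℝ)) x - u x| ∂(haarAddCircle (T := T)) ≤ κ := by
    refine le_trans (integral_mono ((hind.sub hui).abs) ((hind.sub hgi).norm) fun x => ?_) hg
    exact hue x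
  -- the polynomial
  have hdense := span_fourier_closure_eq_top (T := T)
  have hmem : (⟨fun x => ((u x : ℝ) : ℂ), Complex.continuous_ofReal.comp huc⟩ : C(AddCircle T, ℂ)) ∈
      closure ((Submodule.span ℂ (Set.range (@fourier T)) : Submodule ℂ C(AddCircle T, ℂ)) :
        Set C(AddCircle T, ℂ)) := by
    rw [← Submodule.topologicalClosure_coe, hdense]
    exact Submodule.mem_top
  obtain ⟨p, hp, hpd⟩ := Metric.mem_closure_iff.1 hmem κ hκ0
  have hpu : ∀ x : AddCircle T, ‖p x - ((u x : ℝ) : ℂ)‖ ≤ κ := by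
    intro x
    have h1 := ContinuousMap.dist_apply_le_dist (f := p)
      (g := (⟨fun x => ((u x : ℝ) : ℂ), Complex.continuous_ofReal.comp huc⟩ : C(AddCircle T, ℂ))) x
    rw [dist_eq_norm] at h1
    refine h1.trans ?_
    rw [dist_comm]
    exact hpd.le
  obtain ⟨d₀, hd₀⟩ := span_partialS p hp
  have hpint : Integrable (p : AddCircle T → ℂ) (haarAddCircle (T := T)) :=
    integrable_of_continuous p.continuous
  have hindc : Integrable (E.indicator fun _ => (1 : ℂ)) (haarAddCircle (T := T)) :=
    (integrable_const (1 : ℂ)).indicator hEm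
  have hcast : ∀ x, (E.indicator fun _ => (1 : ℂ)) x =
      (((E.indicator fun _ => (1 : ℝ)) x : ℝ) : ℂ) := by
    intro x
    by_cases hx : x ∈ E
    · rw [Set.indicator_of_mem hx, Set.indicator_of_mem hx, Complex.ofReal_one]
    · rw [Set.indicator_of_notMem hx, Set.indicator_of_notMem hx, Complex.ofReal_zero]
  have hl1 : ∫ x, ‖p x - (E.indicator fun _ => (1 : ℂ)) x‖ ∂(haarAddCircle (T := T)) ≤ 2 * κ := by
    have h1 : ∀ x, ‖p x - (E.indicator fun _ => (1 : ℂ)) x‖ ≤
        κ + |(E.indicator fun _ => (1 : ℝ)) x - u x| := by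
      intro x
      have h2 : p x - (E.indicator fun _ => (1 : ℂ)) x = (p x - ((u x : ℝ) : ℂ)) -
          ((((E.indicator fun _ => (1 : ℝ)) x - u x : ℝ)) : ℂ) := by
        rw [hcast]; push_cast; ring
      rw [h2]
      refine (norm_sub_le _ _).trans ?_
      rw [Complex.norm_real, Real.norm_eq_abs]
      linarith [hpu x]
    have hi2 : Integrable (fun x => |(E.indicator fun _ => (1 : ℝ)) x - u x|)
        (haarAddCircle (T := T)) := (hind.sub hui).abs
    have hi3 : Integrable (fun x => κ + |(E.indicator fun _ => (1 : ℝ)) x - u x|)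
        (haarAddCircle (T := T)) := (integrable_const κ).add hi2
    have hi1 : Integrable (fun x => ‖p x - (E.indicator fun _ => (1 : ℂ)) x‖)
        (haarAddCircle (T := T)) := (hpint.sub hindc).norm
    refine (integral_mono hi1 hi3 h1).trans ?_
    rw [integral_add (integrable_const κ) hi2, integral_const]
    simp only [probReal_univ, one_smul]
    linarith
  have hcoef : ∀ k : ℤ, ‖fourierCoeff (p : AddCircle T → ℂ) k -
      fourierCoeff (E.indicator fun _ => (1 : ℂ)) k‖ ≤ 2 * κ := by
    intro k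
    unfold fourierCoeff
    rw [← integral_sub (hpint.fourier_smul (-k)) (hindc.fourier_smul (-k))]
    refine (norm_integral_le_integral_norm _).trans (le_trans (le_of_eq ?_) hl1)
    refine integral_congr_ae (Eventually.of_forall fun x => ?_)
    beta_reduce
    rw [← smul_sub, norm_smul, norm_fourier, one_mul]
  -- conclusion
  have hval : ∀ x : AddCircle T, trigSum (fourierCoeff (p : AddCircle T → ℂ)) (max D d₀) x = p x :=
    fun x => hd₀ _ (le_max_right _ _) x
  refine ⟨max D d₀, fourierCoeff (p : AddCircle T → ℂ), {x | δ / 2 ≤ u x}, ?_, ?_, ?_, ?_, ?_⟩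
  · exact (isClosed_le continuous_const huc).measurableSet
  · have h1 : {x | δ / 2 ≤ u x} ⊆ E ∪ {x | δ / 2 ≤ |(E.indicator fun _ => (1 : ℝ)) x - u x|} := by
      intro x hx
      by_cases hxE : x ∈ E
      · exact Or.inl hxE
      · right
        simp only [Set.mem_ofPred_eq] at hx ⊢
        rw [Set.indicator_of_notMem hxE, zero_sub, abs_neg, abs_of_nonneg (hu0 x)]
        exact hx
    have h2 : haarAddCircle {x | δ / 2 ≤ |(E.indicator fun _ => (1 : ℝ)) x - u x|} ≤
        ENNReal.ofReal t := by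
      have h3 := mul_meas_ge_le_integral_of_nonneg (μ := haarAddCircle (T := T))
        (f := fun x => |(E.indicator fun _ => (1 : ℝ)) x - u x|)
        (Eventually.of_forall fun x => abs_nonneg _) (hind.sub hui).abs (δ / 2)
      rw [ENNReal.le_ofReal_iff_toReal_le (measure_ne_top _ _) ht.le]
      have h4 : δ / 2 * ((haarAddCircle (T := T)).real
          {x | δ / 2 ≤ |(E.indicator fun _ => (1 : ℝ)) x - u x|}) ≤ δ / 2 * t := by
        refine h3.trans (huint.trans ?_)
        linarith
      exact le_of_mul_le_mul_left h4 (by positivity)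
    calc haarAddCircle {x | δ / 2 ≤ u x} ≤ haarAddCircle E + haarAddCircle
          {x | δ / 2 ≤ |(E.indicator fun _ => (1 : ℝ)) x - u x|} :=
          (measure_mono h1).trans (measure_union_le _ _)
      _ ≤ ENNReal.ofReal t + ENNReal.ofReal t := add_le_add hEt h2
      _ = ENNReal.ofReal (2 * t) := by rw [← ENNReal.ofReal_add ht.le ht.le]; ring_nf
  · intro x
    rw [hval]
    have h1 := norm_add_le (p x - ((u x : ℝ) : ℂ)) ((u x : ℝ) : ℂ)
    rw [sub_add_cancel, Complex.norm_real, Real.norm_of_nonneg (hu0 x)] at h1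
    linarith [hpu x, hu1 x]
  · intro x hx
    simp only [Set.mem_ofPred_eq, not_le] at hx
    rw [hval]
    have h1 := norm_add_le (p x - ((u x : ℝ) : ℂ)) ((u x : ℝ) : ℂ)
    rw [sub_add_cancel, Complex.norm_real, Real.norm_of_nonneg (hu0 x)] at h1
    linarith [hpu x]
  · intro x
    obtain ⟨n, hn, hx⟩ := hD x
    refine ⟨n, hn.trans (le_max_left _ _), ?_⟩
    have h2 : ‖partialS (E.indicator fun _ => (1 : ℂ)) n x -
        trigSum (fourierCoeff (p : AddCircle T → ℂ)) n x‖ ≤ (2 * D + 1) * (2 * κ) := by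
      unfold partialS trigSum
      rw [← sum_sub_distrib]
      refine (norm_sum_le _ _).trans ?_
      have h3 : ∀ k ∈ Icc (-(n : ℤ)) (n : ℤ),
          ‖fourierCoeff (E.indicator fun _ => (1 : ℂ)) k * (fourier k x : ℂ) -
            fourierCoeff (p : AddCircle T → ℂ) k * fourier k x‖ ≤ 2 * κ := by
        intro k _
        rw [← sub_mul, norm_mul, norm_fourier, mul_one, norm_sub_rev]
        exact hcoef k
      refine (sum_le_sum h3).trans ?_
      rw [sum_const, nsmul_eq_mul, Int.card_Icc]
      have h5 : (((n : ℤ) + 1 - -(n : ℤ)).toNat : ℝ) ≤ 2 * D + 1 := by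
        have : ((n : ℤ) + 1 - -(n : ℤ)).toNat ≤ 2 * D + 1 := by omega
        exact_mod_cast this
      gcongr
    have h3 := norm_sub_norm_le (partialS (E.indicator fun _ => (1 : ℂ)) n x)
      (trigSum (fourierCoeff (p : AddCircle T → ℂ)) n x)
    linarith

end Vale.Agent.P091
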