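import Vale.Agent.P091.H690b.LBlock
import Vale.Agent.P091.H690b.GlideP

set_option linter.all false

namespace Vale.Agent.P091

open Finset MeasureTheory AddCircle Filter Topology

variable {T : ℝ} [hT : Fact (0 < T)]

/-- a decreasing choice -/
theorem exists_half_seq (P : ℕ → ℝ → Prop) (hex : ∀ (j : ℕ) (b : ℝ), 0 < b → ∃ t, 0 < t ∧ t < b ∧ P j t) :
    ∃ t : ℕ → ℝ, (∀ j, 0 < t j) ∧ (∀ j, t (j + 1) ≤ t j / 2) ∧ ∀ j, P j (t j) := by
  choose! τ hτ using hex
  let t : ℕ → ℝ := fun j => Nat.rec (τ 0 1) (fun j r => τ (j + 1) (r / 2)) j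
  have ht0 : t 0 = τ 0 1 := rfl
  have hts : ∀ j, t (j + 1) = τ (j + 1) (t j / 2) := fun j => rfl
  have hpos : ∀ j, 0 < t j := by
    intro j
    induction j with
    | zero => rw [ht0]; exact (hτ 0 1 one_pos).1
    | succ j ih => rw [hts]; exact (hτ (j + 1) (t j / 2) (by linarith)).1
  refine ⟨t, hpos, fun j => ?_, fun j => ?_⟩
  · rw [hts]; exact (hτ (j + 1) (t j / 2) (by linarith [hpos j])).2.1.le
  · cases j with
    | zero => rw [ht0]; exact (hτ 0 1 one_pos).2.2
    | succ j => rw [hts]; exact (hτ (j + 1) (t j / 2) (by linarith [hpos j])).2.2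

/-- **Everywhere divergence in Lorentz spaces.** -/
theorem lorentz_divergence (φ : ℝ → ℝ) (hφ0 : ∀ t, 0 ≤ t → 0 ≤ φ t)
    (hφm : MonotoneOn φ (Set.Ici 0))
    (hsub : ∀ s t, 0 ≤ s → 0 ≤ t → φ (s + t) ≤ φ s + φ t)
    (hlim : ∀ η : ℝ, 0 < η → ∀ t₀ : ℝ, 0 < t₀ → ∃ t : ℝ, 0 < t ∧ t < t₀ ∧
      φ t ≤ η * (t * Real.sqrt (Real.log (1 / t)))) :
    ∃ f : AddCircle T → ℂ, Integrable f haarAddCircle ∧
      IntegrableOn (fun s : ℝ => φ (haarAddCircle {x : AddCircle T | s < ‖f x‖}).toReal)
        (Set.Ioi 0) ∧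
      (∀ k : ℤ, k ≤ 0 → fourierCoeff f k = 0) ∧
      ∀ x : AddCircle T, ¬ BddAbove (Set.range fun N : ℕ => ‖partialS f N x‖) := by
  obtain ⟨c, hc, t₀, ht₀, hblock⟩ := exists_lorentz_block (T := T)
  obtain ⟨t, htpos, hthalf, htP⟩ := exists_half_seq
    (fun j t => t < t₀ ∧ t < 1 ∧ φ t ≤ c * (1 / 8) ^ (j + 1) * (t * Real.sqrt (Real.log (1 / t))) ∧
      2 * 4 ^ j / c ≤ Real.sqrt (Real.log (1 / t))) (by
    intro j b hb
    obtain ⟨t, h1, h2, h3⟩ := hlim (c * (1 / 8) ^ (j + 1)) (by positivity)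
      (min (min b t₀) (min 1 (Real.exp (-((2 * 4 ^ j / c) ^ 2))))) (by positivity)
    refine ⟨t, h1, h2.trans_le ((min_le_left _ _).trans (min_le_left _ _)),
      h2.trans_le ((min_le_left _ _).trans (min_le_right _ _)),
      h2.trans_le ((min_le_right _ _).trans (min_le_left _ _)), h3, ?_⟩
    have h4 : t < Real.exp (-((2 * 4 ^ j / c) ^ 2)) :=
      h2.trans_le ((min_le_right _ _).trans (min_le_right _ _))
    apply Real.le_sqrt_of_sq_le
    rw [one_div, Real.log_inv]
    have h5 : Real.log t ≤ -((2 * 4 ^ j / c) ^ 2) := by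
      rw [Real.log_le_iff_le_exp h1]; exact h4.le
    linarith)
  obtain ⟨ω, hω⟩ : ∃ ω : ℕ → ℝ, ω = fun j => t j * Real.sqrt (Real.log (1 / t j)) := ⟨_, rfl⟩
  have hωj : ∀ j, t j * Real.sqrt (Real.log (1 / t j)) = ω j := fun j => by rw [hω]
  have hsq0 : ∀ j, 0 < Real.sqrt (Real.log (1 / t j)) := fun j =>
    lt_of_lt_of_le (by positivity) (htP j).2.2.2
  have hω0 : ∀ j, 0 < ω j := fun j => by rw [← hωj]; exact mul_pos (htpos j) (hsq0 j)
  obtain ⟨α, hα⟩ : ∃ α : ℕ → ℝ, α = fun j => 2 ^ (j + 1) / (c * ω j) := ⟨_, rfl⟩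
  have hαj : ∀ j, α j = 2 ^ (j + 1) / (c * ω j) := fun j => by rw [hα]
  have hα0 : ∀ j, 0 < α j := fun j => by
    rw [hαj]; have := hω0 j; positivity
  have hαω : ∀ j, α j * (c * ω j) = 2 ^ (j + 1) := fun j => by
    rw [hαj]; have := (hω0 j).ne'; field_simp
  have hαφ : ∀ j, α j * φ (t j) ≤ (1 / 4) ^ (j + 1) := by
    intro j
    have h1 := (htP j).2.2.1
    rw [hωj] at h1
    calc α j * φ (t j) ≤ α j * (c * (1 / 8) ^ (j + 1) * ω j) :=
          mul_le_mul_of_nonneg_left h1 (hα0 j).le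
      _ = (α j * (c * ω j)) * (1 / 8) ^ (j + 1) := by ring
      _ = (1 / 4) ^ (j + 1) := by rw [hαω, ← mul_pow]; norm_num
  have hαt : ∀ j, α j * t j ≤ (1 / 2) ^ j := by
    intro j
    have h1 := (htP j).2.2.2
    rw [div_le_iff₀ hc] at h1
    have h2 : α j * t j * (Real.sqrt (Real.log (1 / t j)) * c) = 2 ^ (j + 1) := by
      rw [← hαω j, ← hωj]; ring
    have h3 : α j * t j * (2 * 4 ^ j) ≤ 2 ^ (j + 1) := by
      rw [← h2]
      exact mul_le_mul_of_nonneg_left h1 (mul_pos (hα0 j) (htpos j)).le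
    have h4 : (2 : ℝ) ^ (j + 1) = (1 / 2) ^ j * (2 * 4 ^ j) := by
      rw [pow_succ, mul_comm (2 : ℝ) (4 ^ j), ← mul_assoc, ← mul_pow]; norm_num
    rw [h4] at h3
    exact le_of_mul_le_mul_right h3 (by positivity)
  have hαlow : ∀ j, 2 / c ≤ α j := by
    intro j
    have h1 : ω j ≤ 1 := by
      have ht1 := (htP j).2.1
      have h2 : Real.log (1 / t j) ≤ 1 / t j := by
        have := Real.log_le_sub_one_of_pos (show (0 : ℝ) < 1 / t j by have := htpos j; positivity)
        linarith
      have h3 : Real.sqrt (Real.log (1 / t j)) ≤ 1 / t j := by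
        apply Real.sqrt_le_iff.2
        have h5 : 1 ≤ 1 / t j := by rw [le_div_iff₀ (htpos j)]; linarith
        refine ⟨by linarith, h2.trans ?_⟩
        nlinarith
      rw [← hωj]
      calc t j * Real.sqrt (Real.log (1 / t j)) ≤ t j * (1 / t j) :=
            mul_le_mul_of_nonneg_left h3 (htpos j).le
        _ = 1 := by have := (htpos j).ne'; field_simp
    rw [hαj, div_le_div_iff₀ hc (mul_pos hc (hω0 j))]
    have h2 : (2 : ℝ) ≤ 2 ^ (j + 1) := by
      calc (2 : ℝ) = 2 ^ 1 := by norm_num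
        _ ≤ 2 ^ (j + 1) := pow_le_pow_right₀ (by norm_num) (by omega)
    have h3 : c * ω j ≤ c := by nlinarith
    nlinarith
  -- the blocks
  have hδ0 : ∀ j, 0 < (1 / 2 : ℝ) ^ j / α j := fun j => by have := hα0 j; positivity
  have hbl := fun j => hblock (t j) (htpos j) (htP j).1 ((1 / 2) ^ j / α j) (hδ0 j)
  choose d a H hHm hHt ha2 haδ habig using hbl
  obtain ⟨bb, hbb⟩ : ∃ bb : ℕ → ℤ → ℂ, bb = fun j k => ((α j : ℝ) : ℂ) * a j k := ⟨_, rfl⟩
  have hbbs : ∀ (j n : ℕ) (x : AddCircle T), ‖(trigSum (bb j) n x : ℂ)‖ =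
      α j * ‖(trigSum (a j) n x : ℂ)‖ := by
    intro j n x
    rw [hbb, trigSum_smul, norm_mul, Complex.norm_real, Real.norm_of_nonneg (hα0 j).le]
  -- pointwise estimates
  have hp1 : ∀ j (x : AddCircle T), ‖(trigSum (bb j) (d j) x : ℂ)‖ ≤ 2 * α j := fun j x => by
    rw [hbbs]; have := ha2 j x; have := hα0 j; nlinarith
  have hp2 : ∀ j (x : AddCircle T), x ∉ H j → ‖(trigSum (bb j) (d j) x : ℂ)‖ ≤ (1 / 2) ^ j := by
    intro j x hx
    rw [hbbs]
    have h1 := haδ j x hx
    rw [le_div_iff₀ (hα0 j)] at h1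
    linarith
  have hsum : Summable fun j => ∫ x, ‖(trigSum (bb j) (d j) x : ℂ)‖ ∂(haarAddCircle (T := T)) := by
    refine Summable.of_nonneg_of_le (fun j => integral_nonneg fun x => norm_nonneg _) (fun j => ?_)
      (summable_geometric_two.mul_left 5)
    have h1 : ∀ x : AddCircle T, ‖(trigSum (bb j) (d j) x : ℂ)‖ ≤
        (H j).indicator (fun _ => 2 * α j) x + (1 / 2) ^ j := by
      intro x
      by_cases hx : x ∈ H j
      · rw [Set.indicator_of_mem hx]
        have := hp1 j x
        have : (0 : ℝ) ≤ (1 / 2) ^ j := by positivity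
        linarith
      · rw [Set.indicator_of_notMem hx, zero_add]
        exact hp2 j x hx
    have hi1 : Integrable (fun x : AddCircle T => ‖(trigSum (bb j) (d j) x : ℂ)‖)
        (haarAddCircle (T := T)) := integrable_of_continuous (continuous_trigSum _ _).norm
    have hi2 : Integrable ((H j).indicator (fun _ => 2 * α j)) (haarAddCircle (T := T)) :=
      (integrable_const _).indicator (hHm j)
    have hi3 : Integrable (fun x => (H j).indicator (fun _ => 2 * α j) x + (1 / 2 : ℝ) ^ j)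
        (haarAddCircle (T := T)) := hi2.add (integrable_const _)
    refine (integral_mono hi1 hi3 h1).trans ?_
    rw [integral_add hi2 (integrable_const _), integral_indicator (hHm j), setIntegral_const,
      integral_const]
    simp only [probReal_univ, one_smul, smul_eq_mul]
    have h2 : (haarAddCircle (T := T)).real (H j) ≤ 2 * t j :=
      ENNReal.toReal_le_of_le_ofReal (by have := htpos j; positivity) (hHt j)
    have h3 : (haarAddCircle (T := T)).real (H j) * (2 * α j) ≤ 2 * t j * (2 * α j) :=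
      mul_le_mul_of_nonneg_right h2 (by have := hα0 j; positivity)
    have h4 := hαt j
    linarith
  obtain ⟨f, hfint, hf0, hfle, hfS⟩ := glide_pos (T := T) d bb hsum
  refine ⟨f, hfint, ?_, hf0, ?_⟩
  · -- the distribution function
    obtain ⟨B, hB⟩ : ∃ B : ℕ → ℝ, B = fun J => ∑ j ∈ range J, 2 * α j + 2 := ⟨_, rfl⟩
    have hB0 : B 0 = 2 := by rw [hB]; simp
    have hBs : ∀ J, B (J + 1) = B J + 2 * α J := by
      intro J; rw [hB]; simp only [sum_range_succ]; ring
    have hBpos : ∀ J, 0 ≤ B J := by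
      intro J
      rw [hB]
      have : 0 ≤ ∑ j ∈ range J, 2 * α j := sum_nonneg fun j _ => by have := hα0 j; positivity
      simp only []
      linarith
    have hBge : ∀ J : ℕ, 4 / c * J ≤ B J := by
      intro J
      induction J with
      | zero => rw [hB0]; simp
      | succ J ih =>
        rw [hBs]
        have := hαlow J
        push_cast
        have h2 : 4 / c * (J + 1) = 4 / c * J + 2 * (2 / c) := by ring
        linarith
    have hfB : ∀ (J : ℕ) (x : AddCircle T), x ∉ (⋃ i, H (J + i)) → ‖f x‖ ≤ B J := by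
      intro J x hx
      simp only [Set.mem_iUnion, not_exists] at hx
      have htail : ∀ i, ‖(trigSum (bb (i + J)) (d (i + J)) x : ℂ)‖ ≤ (1 / 2) ^ i := by
        intro i
        have h1 := hp2 (i + J) x (by rw [add_comm]; exact hx i)
        refine h1.trans ?_
        rw [pow_add]
        exact mul_le_of_le_one_right (by positivity) (pow_le_one₀ (by norm_num) (by norm_num))
      have hsT : Summable fun i => ‖(trigSum (bb (i + J)) (d (i + J)) x : ℂ)‖ :=
        Summable.of_nonneg_of_le (fun i => norm_nonneg _) htail summable_geometric_two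
      have hsA : Summable fun j => ‖(trigSum (bb j) (d j) x : ℂ)‖ := by
        rw [← summable_nat_add_iff J]
        exact hsT
      refine (hfle x hsA).trans ?_
      rw [← hsA.sum_add_tsum_nat_add J, hB]
      have h2 := hsT.tsum_le_tsum htail summable_geometric_two
      rw [tsum_geometric_two] at h2
      have h3 : ∑ j ∈ range J, ‖(trigSum (bb j) (d j) x : ℂ)‖ ≤ ∑ j ∈ range J, 2 * α j :=
        sum_le_sum fun j _ => hp1 j x
      simp only []
      linarith
    have htJ : ∀ J i, t (J + i) ≤ t J * (1 / 2) ^ i := by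
      intro J i
      induction i with
      | zero => simp
      | succ i ih =>
        have h1 := hthalf (J + i)
        rw [pow_succ, ← add_assoc]
        linarith
    have hmU : ∀ J, haarAddCircle (⋃ i, H (J + i)) ≤ ENNReal.ofReal (4 * t J) := by
      intro J
      refine (measure_iUnion_le _).trans ?_
      have h1 : ∀ i, haarAddCircle (H (J + i)) ≤ ENNReal.ofReal (2 * t J * (1 / 2) ^ i) := by
        intro i
        refine (hHt (J + i)).trans (ENNReal.ofReal_le_ofReal ?_)
        have := htJ J i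
        linarith
      refine (ENNReal.tsum_le_tsum h1).trans (le_of_eq ?_)
      rw [← ENNReal.ofReal_tsum_of_nonneg (fun i => by have := htpos J; positivity)
        (summable_geometric_two.mul_left _), tsum_mul_left, tsum_geometric_two]
      ring_nf
    obtain ⟨F, hF⟩ : ∃ F : ℝ → ℝ, F = fun s : ℝ =>
      φ (haarAddCircle {x : AddCircle T | s < ‖f x‖}).toReal := ⟨_, rfl⟩
    rw [← hF]
    have hF0 : ∀ s, 0 ≤ F s := fun s => by rw [hF]; exact hφ0 _ ENNReal.toReal_nonneg
    have hF1 : ∀ s, F s ≤ φ 1 := by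
      intro s
      rw [hF]
      refine hφm (Set.mem_Ici.2 ENNReal.toReal_nonneg) (Set.mem_Ici.2 zero_le_one) ?_
      exact (ENNReal.toReal_mono (by simp) prob_le_one).trans (by simp)
    have hFJ : ∀ J s, B J ≤ s → F s ≤ 4 * φ (t J) := by
      intro J s hs
      have h1 : (haarAddCircle {x : AddCircle T | s < ‖f x‖}).toReal ≤ 4 * t J := by
        apply ENNReal.toReal_le_of_le_ofReal (by have := htpos J; positivity)
        refine (measure_mono ?_).trans (hmU J)
        intro x hx
        by_contra hcon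
        have h2 := hfB J x hcon
        simp only [Set.mem_ofPred_eq] at hx
        linarith
      have h2 : F s ≤ φ (4 * t J) := by
        rw [hF]
        exact hφm (Set.mem_Ici.2 ENNReal.toReal_nonneg)
          (Set.mem_Ici.2 (by have := htpos J; positivity)) h1
      have h3 := htpos J
      have h4 := hsub (t J) (t J) h3.le h3.le
      have h5 := hsub (t J + t J) (t J + t J) (by linarith) (by linarith)
      have h6 : 4 * t J = (t J + t J) + (t J + t J) := by ring
      rw [h6] at h2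
      linarith
    have hanti : Antitone F := by
      intro s s' hss
      rw [hF]
      refine hφm (Set.mem_Ici.2 ENNReal.toReal_nonneg) (Set.mem_Ici.2 ENNReal.toReal_nonneg) ?_
      exact ENNReal.toReal_mono (measure_ne_top _ _) (measure_mono fun x hx => lt_of_le_of_lt hss hx)
    refine ⟨hanti.measurable.aestronglyMeasurable, ?_⟩
    rw [hasFiniteIntegral_iff_ofReal (Eventually.of_forall hF0)]
    -- the covering
    obtain ⟨S, hS⟩ : ∃ S : ℕ → Set ℝ, S = fun J => if J = 0 then Set.Ioc 0 (B 0)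
      else Set.Ioc (B (J - 1)) (B J) := ⟨_, rfl⟩
    have hS0 : S 0 = Set.Ioc 0 (B 0) := by rw [hS]; simp
    have hSs : ∀ J, S (J + 1) = Set.Ioc (B J) (B (J + 1)) := fun J => by rw [hS]; simp
    have hcover : Set.Ioi (0 : ℝ) ⊆ ⋃ J, S J := by
      intro s hs
      rw [Set.mem_Ioi] at hs
      have hexJ : ∃ J : ℕ, s ≤ B J := by
        obtain ⟨J, hJ⟩ := exists_nat_ge (s * (c / 4))
        refine ⟨J, le_trans ?_ (hBge J)⟩
        calc s = 4 / c * (s * (c / 4)) := by field_simp
          _ ≤ 4 / c * J := by gcongr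
      classical
      have h1 := Nat.find_spec hexJ
      have h2 : ∀ l, l < Nat.find hexJ → ¬ s ≤ B l := fun l hl => Nat.find_min hexJ hl
      generalize Nat.find hexJ = J at h1 h2
      rw [Set.mem_iUnion]
      cases J with
      | zero => exact ⟨0, by rw [hS0]; exact ⟨hs, h1⟩⟩
      | succ J =>
        refine ⟨J + 1, ?_⟩
        rw [hSs]
        exact ⟨not_le.1 (h2 J (by omega)), h1⟩
    have hbound : ∀ J, ∫⁻ s in S J, ENNReal.ofReal (F s) ≤
        ENNReal.ofReal (2 * φ 1 * (1 / 2) ^ J + 8 * (1 / 4) ^ J) := by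
      intro J
      have hφ1 : 0 ≤ φ 1 := hφ0 1 zero_le_one
      cases J with
      | zero =>
        have h1 : ∫⁻ s in S 0, ENNReal.ofReal (F s) ≤ ∫⁻ s in S 0, ENNReal.ofReal (φ 1) :=
          lintegral_mono fun s => ENNReal.ofReal_le_ofReal (hF1 s)
        refine h1.trans ?_
        rw [setLIntegral_const, hS0, hB0, Real.volume_Ioc, ← ENNReal.ofReal_mul hφ1]
        apply ENNReal.ofReal_le_ofReal
        simp only [pow_zero]
        linarith
      | succ J =>
        have h1 : ∫⁻ s in S (J + 1), ENNReal.ofReal (F s) ≤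
            ∫⁻ s in S (J + 1), ENNReal.ofReal (4 * φ (t J)) := by
          apply setLIntegral_mono' (by rw [hSs]; exact measurableSet_Ioc)
          intro s hs
          rw [hSs] at hs
          exact ENNReal.ofReal_le_ofReal (hFJ J s hs.1.le)
        refine h1.trans ?_
        have hφt := hφ0 (t J) (htpos J).le
        rw [setLIntegral_const, hSs, Real.volume_Ioc, ← ENNReal.ofReal_mul (by positivity)]
        apply ENNReal.ofReal_le_ofReal
        rw [hBs]
        have h2 := hαφ J
        have h3 : 4 * φ (t J) * (B J + 2 * α J - B J) = 8 * (α J * φ (t J)) := by ring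
        rw [h3]
        have h4 : (0 : ℝ) ≤ 2 * φ 1 * (1 / 2) ^ (J + 1) := by positivity
        linarith
    have hsummable : Summable fun J : ℕ => 2 * φ 1 * (1 / 2 : ℝ) ^ J + 8 * (1 / 4) ^ J :=
      (summable_geometric_two.mul_left _).add
        ((summable_geometric_of_lt_one (by norm_num) (by norm_num)).mul_left _)
    calc ∫⁻ s in Set.Ioi 0, ENNReal.ofReal (F s) ≤ ∫⁻ s in ⋃ J, S J, ENNReal.ofReal (F s) :=
          lintegral_mono_set hcover
      _ ≤ ∑' J, ∫⁻ s in S J, ENNReal.ofReal (F s) := lintegral_iUnion_le _ _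
      _ ≤ ∑' J : ℕ, ENNReal.ofReal (2 * φ 1 * (1 / 2) ^ J + 8 * (1 / 4) ^ J) :=
          ENNReal.tsum_le_tsum hbound
      _ < ⊤ := hsummable.tsum_ofReal_lt_top
  · -- unbounded partial sums
    intro x hx
    obtain ⟨M, hM⟩ := hx
    have hM' : ∀ N : ℕ, ‖partialS f N x‖ ≤ M := fun N => hM ⟨N, rfl⟩
    obtain ⟨j, hj⟩ := pow_unbounded_of_one_lt M (by norm_num : (1 : ℝ) < 2)
    obtain ⟨n, hn, hbig⟩ := habig j x
    obtain ⟨N₁, N₂, hN⟩ := hfS j n hn x
    rw [hbbs j n x] at hN
    rw [hωj] at hbig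
    have h2 : (2 : ℝ) ^ (j + 1) ≤ α j * ‖(trigSum (a j) n x : ℂ)‖ := by
      rw [← hαω j]
      exact mul_le_mul_of_nonneg_left hbig (hα0 j).le
    have h3 := norm_sub_le (partialS f N₂ x) (partialS f N₁ x)
    have h4 := hM' N₁
    have h5 := hM' N₂
    rw [pow_succ] at h2
    linarith

end Vale.Agent.P091
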