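import Vale.Agent.P091.H690b.Sets

set_option linter.all false

namespace Vale.Agent.P091

open Finset MeasureTheory AddCircle Filter Topology

variable {T : ℝ} [hT : Fact (0 < T)]

theorem partialS_univ (N : ℕ) (x : AddCircle T) :
    partialS (Set.univ.indicator fun _ => (1 : ℂ)) N x = 1 := by
  have h1 : (Set.univ.indicator fun _ => (1 : ℂ) : AddCircle T → ℂ) = fun x => fourier 0 x := by
    ext x; simp
  rw [h1]
  unfold partialS
  have h2 : fourierCoeff (fun x : AddCircle T => (fourier 0 x : ℂ)) = Pi.single 0 1 :=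
    fourierCoeff_fourier (T := T) 0
  rw [h2]
  rw [sum_eq_single 0]
  · simp
  · intro k _ hk
    rw [Pi.single_eq_of_ne hk, zero_mul]
  · intro h
    exact absurd (mem_Icc.2 (by omega)) h

/-- **Lower bound for the restricted weak type `(p, p)` constants** of the maximal partial sum. -/
theorem restricted_lower : ∃ c : ℝ, 0 < c ∧ ∀ p : ℝ, 1 < p → p ≤ 2 → ∀ C : ℝ, 0 ≤ C →
    (∀ E : Set (AddCircle T), MeasurableSet E → ∀ y : ℝ, 0 < y →
      y ^ p * (haarAddCircle {x : AddCircle T | ∃ N : ℕ,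
        y < ‖partialS (E.indicator fun _ => (1 : ℂ)) N x‖}).toReal ≤
      C ^ p * (haarAddCircle E).toReal) →
    c / Real.sqrt (p - 1) ≤ C := by
  obtain ⟨c₀, hc₀, t₀, ht₀, htest⟩ := exists_set_every (T := T)
  obtain ⟨A, hA⟩ : ∃ A : ℝ, A = max (Real.log (1 / t₀)) 1 := ⟨_, rfl⟩
  have hA0 : 0 < A := by rw [hA]; positivity
  refine ⟨min (c₀ / 3) (1 / (2 * Real.sqrt A)), lt_min (by positivity) (by positivity), ?_⟩
  intro p hp1 hp2 C hC hweak
  have hp0 : 0 < p - 1 := by linarith
  have hs0 : 0 < Real.sqrt (p - 1) := Real.sqrt_pos.2 hp0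
  -- `C ≥ 1 / 2`
  have hC1 : 1 / 2 ≤ C := by
    have h1 := hweak Set.univ MeasurableSet.univ (1 / 2) (by norm_num)
    have h2 : {x : AddCircle T | ∃ N : ℕ,
        (1 / 2 : ℝ) < ‖partialS (Set.univ.indicator fun _ => (1 : ℂ)) N x‖} = Set.univ := by
      rw [Set.eq_univ_iff_forall]
      intro x
      refine ⟨0, ?_⟩
      rw [partialS_univ, norm_one]; norm_num
    rw [h2, measure_univ, ENNReal.toReal_one, mul_one, mul_one] at h1
    exact (Real.rpow_le_rpow_iff (by norm_num) hC (by linarith)).1 h1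
  by_cases hcase : A < 1 / (p - 1)
  · -- `p` close to one
    have hlt : Real.exp (-(1 / (p - 1))) < t₀ := by
      rw [← Real.lt_log_iff_exp_lt ht₀]
      have h1 : Real.log (1 / t₀) ≤ A := by rw [hA]; exact le_max_left _ _
      rw [one_div, Real.log_inv] at h1
      linarith
    obtain ⟨t, ht⟩ : ∃ t : ℝ, t = Real.exp (-(1 / (p - 1))) := ⟨_, rfl⟩
    have ht0 : 0 < t := by rw [ht]; positivity
    rw [← ht] at hlt
    obtain ⟨E, hEm, hEt, hE⟩ := htest t ht0 hlt
    have hlog : Real.log (1 / t) = 1 / (p - 1) := by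
      rw [ht, one_div, Real.log_inv, Real.log_exp, neg_neg]
    rw [hlog] at hE
    obtain ⟨y, hy⟩ : ∃ y : ℝ, y = c₀ * (t * Real.sqrt (1 / (p - 1))) := ⟨_, rfl⟩
    have hy0 : 0 < y := by rw [hy]; positivity
    rw [← hy] at hE
    have h1 := hweak E hEm y hy0
    have h2 : {x : AddCircle T | ∃ N : ℕ,
        y < ‖partialS (E.indicator fun _ => (1 : ℂ)) N x‖} = Set.univ := by
      rw [Set.eq_univ_iff_forall]
      exact hE
    rw [h2, measure_univ, ENNReal.toReal_one, mul_one] at h1
    have h3 : (haarAddCircle E).toReal ≤ t := ENNReal.toReal_le_of_le_ofReal ht0.le hEt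
    have hCp : 0 ≤ C ^ p := Real.rpow_nonneg hC p
    have h4 : y ^ p ≤ (C * t ^ (1 / p)) ^ p := by
      rw [Real.mul_rpow hC (Real.rpow_nonneg ht0.le _), ← Real.rpow_mul ht0.le,
        one_div_mul_cancel (by linarith), Real.rpow_one]
      exact h1.trans (mul_le_mul_of_nonneg_left h3 hCp)
    have h5 : y ≤ C * t ^ (1 / p) :=
      (Real.rpow_le_rpow_iff hy0.le (by positivity) (by linarith)).1 h4
    have h6 : t ^ (1 / p) ≤ 3 * t := by
      have h7 : t ^ (1 / p) = t * Real.exp (1 / p) := by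
        rw [ht, ← Real.exp_mul, ← Real.exp_add]
        congr 1
        have : p - 1 ≠ 0 := hp0.ne'
        field_simp
        ring
      rw [h7]
      have h8 : Real.exp (1 / p) ≤ 3 := by
        have h9 : Real.exp (1 / p) ≤ Real.exp 1 := by
          apply Real.exp_le_exp.2
          rw [div_le_one (by linarith)]; linarith
        have := Real.exp_one_lt_d9
        linarith
      nlinarith
    have h7 : y ≤ 3 * C * t := by
      calc y ≤ C * t ^ (1 / p) := h5
        _ ≤ C * (3 * t) := by gcongr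
        _ = _ := by ring
    have h8 : Real.sqrt (1 / (p - 1)) = 1 / Real.sqrt (p - 1) := by
      rw [Real.sqrt_div zero_le_one, Real.sqrt_one]
    rw [hy, h8] at h7
    have h9 : c₀ / Real.sqrt (p - 1) ≤ 3 * C := by
      have : c₀ / Real.sqrt (p - 1) * t ≤ 3 * C * t := by
        calc c₀ / Real.sqrt (p - 1) * t = c₀ * (t * (1 / Real.sqrt (p - 1))) := by ring
          _ ≤ _ := h7
      exact le_of_mul_le_mul_right this ht0
    calc min (c₀ / 3) (1 / (2 * Real.sqrt A)) / Real.sqrt (p - 1) ≤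
          c₀ / 3 / Real.sqrt (p - 1) := by gcongr; exact min_le_left _ _
      _ = (c₀ / Real.sqrt (p - 1)) / 3 := by ring
      _ ≤ C := by linarith
  · -- `p` away from one
    push Not at hcase
    have h1 : 1 / Real.sqrt (p - 1) ≤ Real.sqrt A := by
      have h8 : Real.sqrt (1 / (p - 1)) = 1 / Real.sqrt (p - 1) := by
        rw [Real.sqrt_div zero_le_one, Real.sqrt_one]
      rw [← h8]
      exact Real.sqrt_le_sqrt hcase
    have h2 : 0 < Real.sqrt A := Real.sqrt_pos.2 hA0
    calc min (c₀ / 3) (1 / (2 * Real.sqrt A)) / Real.sqrt (p - 1) ≤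
          1 / (2 * Real.sqrt A) / Real.sqrt (p - 1) := by gcongr; exact min_le_right _ _
      _ = 1 / (2 * Real.sqrt A) * (1 / Real.sqrt (p - 1)) := by ring
      _ ≤ 1 / (2 * Real.sqrt A) * Real.sqrt A := by gcongr
      _ = 1 / 2 := by field_simp
      _ ≤ C := hC1

end Vale.Agent.P091
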