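import Vale.Agent.P091.H690b.Coef

set_option linter.all false

namespace Vale.Agent.P091

open MeasureTheory AddCircle Filter Topology

theorem interval_step {a w η : ℝ} (hw : 0 ≤ w) (hη : 0 ≤ η) (h : ℝ → ℝ) (hc : Continuous h)
    (h0 : ∀ x, 0 ≤ h x ∧ h x ≤ 1) (e : ℝ → ℂ) (he : Continuous e) (he1 : ∀ x, ‖e x‖ ≤ 1)
    (hh : ∀ x ∈ Set.Ioc a (a + w), |h x - h a| ≤ η) (hee : ∀ x ∈ Set.Ioc a (a + w), ‖e x - e a‖ ≤ η)
    (s : ℝ → ℂ) (hs : ∀ x ∈ Set.Ioc a (a + w), s x = if x ≤ a + w * h a then 1 else 0) :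
    IntervalIntegrable (fun x => e x * s x) volume a (a + w) ∧
    ‖(∫ x in a..(a + w), e x * s x) - ∫ x in a..(a + w), e x * (h x : ℂ)‖ ≤ 3 * η * w := by
  set c : ℝ := a + w * h a with hcdef
  have hac : a ≤ c := by have := mul_nonneg hw (h0 a).1; linarith
  have hcb : c ≤ a + w := by have := mul_le_of_le_one_right hw (h0 a).2; linarith
  -- the two pieces
  have hI1 : IntervalIntegrable (fun x => e x * s x) volume a c := by
    refine (he.intervalIntegrable a c).congr_ae ?_
    rw [Set.uIoc_of_le hac]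
    refine (ae_restrict_iff' measurableSet_Ioc).2 (Eventually.of_forall fun x hx => ?_)
    beta_reduce
    rw [hs x ⟨hx.1, hx.2.trans hcb⟩, if_pos hx.2, mul_one]
  have hI2 : IntervalIntegrable (fun x => e x * s x) volume c (a + w) := by
    refine (IntervalIntegrable.zero (E := ℂ) (μ := volume) (a := c) (b := a + w)).congr_ae ?_
    rw [Set.uIoc_of_le hcb]
    refine (ae_restrict_iff' measurableSet_Ioc).2 (Eventually.of_forall fun x hx => ?_)
    beta_reduce
    rw [hs x ⟨hac.trans_lt hx.1, hx.2⟩, if_neg (not_le.2 hx.1), mul_zero]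
    rfl
  have hv1 : ∫ x in a..c, e x * s x = ∫ x in a..c, e x := by
    rw [intervalIntegral.integral_of_le hac, intervalIntegral.integral_of_le hac]
    refine setIntegral_congr_fun measurableSet_Ioc fun x hx => ?_
    beta_reduce
    rw [hs x ⟨hx.1, hx.2.trans hcb⟩, if_pos hx.2, mul_one]
  have hv2 : ∫ x in c..(a + w), e x * s x = 0 := by
    rw [intervalIntegral.integral_of_le hcb]
    rw [setIntegral_congr_fun (g := fun _ => (0 : ℂ)) measurableSet_Ioc fun x hx => ?_]
    · simp
    · beta_reduce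
      rw [hs x ⟨hac.trans_lt hx.1, hx.2⟩, if_neg (not_le.2 hx.1), mul_zero]
  refine ⟨hI1.trans hI2, ?_⟩
  rw [← intervalIntegral.integral_add_adjacent_intervals hI1 hI2, hv1, hv2, add_zero]
  -- compare with the value at `a`
  have q1 : ‖(∫ x in a..c, e x) - e a * (w * h a : ℝ)‖ ≤ η * w := by
    have h1 : (∫ x in a..c, e x) - e a * (w * h a : ℝ) = ∫ x in a..c, (e x - e a) := by
      rw [intervalIntegral.integral_sub (he.intervalIntegrable _ _) (by simp),
        intervalIntegral.integral_const]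
      rw [hcdef, add_sub_cancel_left, Complex.real_smul]
      ring
    rw [h1]
    have h2 := intervalIntegral.norm_integral_le_of_norm_le_const (a := a) (b := c)
      (f := fun x => e x - e a) (C := η) (fun x hx => by
        rw [Set.uIoc_of_le hac] at hx
        exact hee x ⟨hx.1, hx.2.trans hcb⟩)
    refine h2.trans ?_
    rw [abs_of_nonneg (by linarith)]
    apply mul_le_mul_of_nonneg_left _ hη
    linarith
  have q2 : ‖(∫ x in a..(a + w), e x * (h x : ℂ)) - e a * (w * h a : ℝ)‖ ≤ 2 * η * w := by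
    have hcc : Continuous fun x => e x * (h x : ℂ) := he.mul (Complex.continuous_ofReal.comp hc)
    have h1 : (∫ x in a..(a + w), e x * (h x : ℂ)) - e a * (w * h a : ℝ) =
        ∫ x in a..(a + w), (e x * (h x : ℂ) - e a * (h a : ℂ)) := by
      rw [intervalIntegral.integral_sub (hcc.intervalIntegrable _ _) (by simp),
        intervalIntegral.integral_const]
      rw [add_sub_cancel_left, Complex.real_smul]
      push_cast
      ring
    rw [h1]
    have h2 := intervalIntegral.norm_integral_le_of_norm_le_const (a := a) (b := a + w)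
      (f := fun x => e x * (h x : ℂ) - e a * (h a : ℂ)) (C := 2 * η) (fun x hx => by
        rw [Set.uIoc_of_le (by linarith)] at hx
        have h3 : e x * (h x : ℂ) - e a * (h a : ℂ) =
            (e x - e a) * (h x : ℂ) + e a * ((h x - h a : ℝ) : ℂ) := by push_cast; ring
        rw [h3]
        refine (norm_add_le _ _).trans ?_
        rw [norm_mul, norm_mul, Complex.norm_real, Complex.norm_real, Real.norm_eq_abs,
          Real.norm_eq_abs]
        have h4 := hee x hx
        have h5 := hh x hx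
        have h6 : |h x| ≤ 1 := by rw [abs_of_nonneg (h0 x).1]; exact (h0 x).2
        have h7 := he1 a
        have h8 : ‖e x - e a‖ * |h x| ≤ η * 1 := by gcongr
        have h9 : ‖e a‖ * |h x - h a| ≤ 1 * η := by gcongr
        linarith)
    refine h2.trans (le_of_eq ?_)
    rw [add_sub_cancel_left, abs_of_nonneg hw]
  have h3 := norm_sub_le ((∫ x in a..c, e x) - e a * (w * h a : ℝ))
    ((∫ x in a..(a + w), e x * (h x : ℂ)) - e a * (w * h a : ℝ))
  rw [sub_sub_sub_cancel_right] at h3
  linarith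

variable {T : ℝ} [hT : Fact (0 < T)]

/-- sets whose low Fourier coefficients are close to those of `h` -/
theorem exists_set_approx (h : AddCircle T → ℝ) (hc : Continuous h)
    (h0 : ∀ x, 0 ≤ h x ∧ h x ≤ 1) (d : ℕ) (δ : ℝ) (hδ : 0 < δ) :
    ∃ E : Set (AddCircle T), MeasurableSet E ∧ ∀ k : ℤ, |k| ≤ d →
      ‖fourierCoeff (E.indicator fun _ => (1 : ℂ)) k - fourierCoeff (fun x => ((h x : ℝ) : ℂ)) k‖ ≤
        δ := by
  have hT0 : 0 < T := hT.out
  obtain ⟨η, hη⟩ : ∃ η : ℝ, η = δ / 3 := ⟨_, rfl⟩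
  have hη0 : 0 < η := by rw [hη]; positivity
  -- uniform continuity
  have huc1 := CompactSpace.uniformContinuous_of_continuous hc
  have huc2 := CompactSpace.uniformContinuous_of_continuous
    (map_continuous (fourier 1 : C(AddCircle T, ℂ)))
  rw [Metric.uniformContinuous_iff] at huc1 huc2
  obtain ⟨r₁, hr₁, huc1⟩ := huc1 η hη0
  obtain ⟨r₂, hr₂, huc2⟩ := huc2 (η / (d + 1)) (by positivity)
  obtain ⟨M, hM⟩ := exists_nat_gt (T / min r₁ r₂)
  have hr0 : 0 < min r₁ r₂ := lt_min hr₁ hr₂
  have hM0 : (0 : ℝ) < M := lt_of_le_of_lt (by positivity) hM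
  obtain ⟨w, hw⟩ : ∃ w : ℝ, w = T / M := ⟨_, rfl⟩
  have hw0 : 0 < w := by rw [hw]; positivity
  have hwr : w < min r₁ r₂ := by
    rw [hw, div_lt_iff₀ hM0]
    rw [div_lt_iff₀ hr0] at hM
    linarith
  have hMw : M * w = T := by rw [hw]; field_simp
  -- the set
  set S : Set ℝ := ⋃ j ∈ Finset.range M, Set.Ioc (j * w) (j * w + w * h ((j * w : ℝ) : AddCircle T))
    with hS
  have hSm : MeasurableSet S := Finset.measurableSet_biUnion _ fun _ _ => measurableSet_Ioc
  have hSj : ∀ j : ℕ, j < M → ∀ x : ℝ, x ∈ Set.Ioc (j * w) (j * w + w) →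
      (x ∈ S ↔ x ≤ j * w + w * h ((j * w : ℝ) : AddCircle T)) := by
    intro j hj x hx
    simp only [hS, Set.mem_iUnion, Finset.mem_range, exists_prop]
    constructor
    · rintro ⟨i, hi, hxi⟩
      have e1 : (i : ℝ) * w < (j + 1) * w := by linarith [hxi.1, hx.2]
      have e2 : (j : ℝ) * w < (i + 1) * w := by
        have := mul_le_of_le_one_right hw0.le (h0 ((i * w : ℝ) : AddCircle T)).2
        linarith [hxi.2, hx.1]
      have e3 : (i : ℝ) < j + 1 := lt_of_mul_lt_mul_right e1 hw0.le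
      have e4 : (j : ℝ) < i + 1 := lt_of_mul_lt_mul_right e2 hw0.le
      have e5 : i < j + 1 := by exact_mod_cast e3
      have e6 : j < i + 1 := by exact_mod_cast e4
      have e7 : i = j := by omega
      subst e7
      exact hxi.2
    · intro hxj
      exact ⟨j, hj, hx.1, hxj⟩
  set E : Set (AddCircle T) := {y | ((equivIoc T 0 y : Set.Ioc (0 : ℝ) (0 + T)) : ℝ) ∈ S} with hE
  have hEm : MeasurableSet E := by
    have h1 : Measurable fun y : AddCircle T => ((measurableEquivIoc T 0 y : Set.Ioc (0 : ℝ) (0 + T)) : ℝ) :=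
      measurable_subtype_coe.comp (measurableEquivIoc T 0).measurable
    exact h1 hSm
  have hEx : ∀ x : ℝ, x ∈ Set.Ioc (0 : ℝ) (0 + T) → ((x : AddCircle T) ∈ E ↔ x ∈ S) := by
    intro x hx
    simp only [hE, Set.mem_ofPred_eq]
    rw [equivIoc_coe_of_mem hx]
  refine ⟨E, hEm, fun k hk => ?_⟩
  rw [fourierCoeff_eq_intervalIntegral _ k 0, fourierCoeff_eq_intervalIntegral _ k 0, zero_add]
  simp only [smul_eq_mul, ← smul_sub]
  obtain ⟨e, hedef⟩ : ∃ e : ℝ → ℂ, ∀ x, e x = (fourier (-k) (x : AddCircle T) : ℂ) := ⟨_, fun _ => rfl⟩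
  obtain ⟨s, hsdef⟩ : ∃ s : ℝ → ℂ, ∀ x, s x = E.indicator (fun _ => (1 : ℂ)) (x : AddCircle T) :=
    ⟨_, fun _ => rfl⟩
  obtain ⟨hr, hrdef⟩ : ∃ hr : ℝ → ℝ, ∀ x, hr x = h (x : AddCircle T) := ⟨_, fun _ => rfl⟩
  simp only [← hedef, ← hsdef, ← hrdef]
  have hecont : Continuous e := by
    have : e = fun x : ℝ => (fourier (-k) (x : AddCircle T) : ℂ) := funext hedef
    rw [this]
    exact (map_continuous (fourier (-k))).comp (AddCircle.continuous_mk' T)
  have hhcont : Continuous hr := by
    have : hr = fun x : ℝ => h (x : AddCircle T) := funext hrdef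
    rw [this]
    exact hc.comp (AddCircle.continuous_mk' T)
  have hdist : ∀ x y : ℝ, |x - y| < min r₁ r₂ → dist (x : AddCircle T) (y : AddCircle T) < min r₁ r₂ := by
    intro x y hxy
    rw [dist_eq_norm, ← AddCircle.coe_sub]
    refine lt_of_le_of_lt ?_ hxy
    exact QuotientAddGroup.norm_mk_le_norm
  have hstep : ∀ j : ℕ, j < M →
      IntervalIntegrable (fun x => e x * s x) volume (j * w) (j * w + w) ∧
      ‖(∫ x in (j * w)..(j * w + w), e x * s x) - ∫ x in (j * w)..(j * w + w), e x * (hr x : ℂ)‖ ≤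
        3 * η * w := by
    intro j hj
    refine interval_step hw0.le hη0.le hr hhcont (fun x => by rw [hrdef]; exact h0 _) e hecont
      (fun x => by rw [hedef, norm_fourier]) ?_ ?_ s ?_
    · intro x hx
      have h1 : |x - j * w| < min r₁ r₂ := by
        rw [abs_of_pos (by linarith [hx.1])]; linarith [hx.2]
      have h2 := huc1 (lt_of_lt_of_le (hdist _ _ h1) (min_le_left _ _))
      rw [Real.dist_eq] at h2
      rw [hrdef, hrdef]
      exact h2.le
    · intro x hx
      have h1 : |x - j * w| < min r₁ r₂ := by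
        rw [abs_of_pos (by linarith [hx.1])]; linarith [hx.2]
      have h2 := huc2 (lt_of_lt_of_le (hdist _ _ h1) (min_le_right _ _))
      rw [dist_eq_norm] at h2
      rw [hedef, hedef]
      obtain ⟨X, hX⟩ : ∃ X : AddCircle T, X = (x : AddCircle T) := ⟨_, rfl⟩
      obtain ⟨Y, hY⟩ : ∃ Y : AddCircle T, Y = ((j * w : ℝ) : AddCircle T) := ⟨_, rfl⟩
      rw [← hX, ← hY] at h2 ⊢
      have h3 : ∀ n : ℤ, (fourier n X : ℂ) - fourier n Y = fourier n Y * (fourier n (X - Y) - 1) := by
        intro n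
        have h4 : (fourier n X : ℂ) = fourier n Y * fourier n (X - Y) := by
          rw [fourier_apply, fourier_apply, fourier_apply, ← Circle.coe_mul, ← AddCircle.toCircle_add,
            ← smul_add, add_sub_cancel]
        rw [h4]; ring
      rw [h3, norm_mul, norm_fourier, one_mul] at h2 ⊢
      refine (norm_fourier_sub_one (-k) (X - Y)).trans ?_
      have hkd : |((-k : ℤ) : ℝ)| ≤ d := by
        push_cast
        rw [abs_neg]
        exact_mod_cast hk
      have hd0 : (0 : ℝ) ≤ d := Nat.cast_nonneg d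
      calc |((-k : ℤ) : ℝ)| * ‖(fourier 1 (X - Y) : ℂ) - 1‖ ≤ (d + 1) * (η / (d + 1)) := by
            apply mul_le_mul (by linarith) h2.le (norm_nonneg _) (by positivity)
        _ = η := by field_simp
    · intro x hx
      have hx0 : x ∈ Set.Ioc (0 : ℝ) (0 + T) := by
        have h1 : (0 : ℝ) ≤ j * w := by positivity
        have h2 : ((j : ℝ) + 1) * w ≤ M * w := by
          apply mul_le_mul_of_nonneg_right _ hw0.le
          exact_mod_cast hj
        constructor
        · linarith [hx.1]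
        · rw [zero_add, ← hMw]; linarith [hx.2]
      rw [hsdef, hrdef]
      by_cases hxS : x ∈ S
      · rw [Set.indicator_of_mem ((hEx x hx0).2 hxS), if_pos ((hSj j hj x hx).1 hxS)]
      · rw [Set.indicator_of_notMem (fun hmem => hxS ((hEx x hx0).1 hmem)),
          if_neg (fun hle => hxS ((hSj j hj x hx).2 hle))]
  -- sum over the intervals
  have hcastw : ∀ j : ℕ, (((j + 1 : ℕ) : ℝ)) * w = j * w + w := by intro j; push_cast; ring
  have hs1 : ∑ j ∈ Finset.range M, ∫ x in ((j : ℕ) : ℝ) * w..((j + 1 : ℕ) : ℝ) * w, e x * s x =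
      ∫ x in (((0 : ℕ) : ℝ) * w)..(M * w), e x * s x := by
    refine intervalIntegral.sum_integral_adjacent_intervals (a := fun j : ℕ => (j : ℝ) * w)
      fun j hj => ?_
    simp only [hcastw]
    exact (hstep j hj).1
  have hs2 : ∑ j ∈ Finset.range M, ∫ x in ((j : ℕ) : ℝ) * w..((j + 1 : ℕ) : ℝ) * w, e x * (hr x : ℂ) =
      ∫ x in (((0 : ℕ) : ℝ) * w)..(M * w), e x * (hr x : ℂ) := by
    refine intervalIntegral.sum_integral_adjacent_intervals (a := fun j : ℕ => (j : ℝ) * w)
      fun j hj => ?_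
    exact (hecont.mul (Complex.continuous_ofReal.comp hhcont)).intervalIntegrable _ _
  rw [hMw, Nat.cast_zero, zero_mul] at hs1 hs2
  rw [← hs1, ← hs2, ← Finset.sum_sub_distrib, norm_smul]
  have h5 : ‖∑ j ∈ Finset.range M, ((∫ x in ((j : ℕ) : ℝ) * w..((j + 1 : ℕ) : ℝ) * w, e x * s x) -
      ∫ x in ((j : ℕ) : ℝ) * w..((j + 1 : ℕ) : ℝ) * w, e x * (hr x : ℂ))‖ ≤ δ * T := by
    refine (norm_sum_le _ _).trans ?_
    calc _ ≤ ∑ j ∈ Finset.range M, 3 * η * w := by
          refine Finset.sum_le_sum fun j hj => ?_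
          rw [Finset.mem_range] at hj
          have h6 := (hstep j hj).2
          rw [hcastw]
          exact h6
      _ = δ * T := by
          rw [Finset.sum_const, Finset.card_range, nsmul_eq_mul, ← hMw, hη]; ring
  rw [Real.norm_of_nonneg (by positivity)]
  calc 1 / T * _ ≤ 1 / T * (δ * T) := by gcongr
    _ = δ := by field_simp

end Vale.Agent.P091
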