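import Vale.Agent.P091.H690b.Generic
import Vale.Agent.P091.H690b.SetApprox
import Vale.Agent.P091.H690b.Every

set_option linter.all false

namespace Vale.Agent.P091

open Finset MeasureTheory AddCircle Filter Topology

variable {T : ℝ} [hT : Fact (0 < T)]

/-- **Sets of small measure with a large partial sum at every point**, with a bound for the
order of the partial sum. -/
theorem exists_set_bdd : ∃ c : ℝ, 0 < c ∧ ∃ t₀ : ℝ, 0 < t₀ ∧ ∀ t : ℝ, 0 < t → t < t₀ →
    ∃ E : Set (AddCircle T), MeasurableSet E ∧ haarAddCircle E ≤ ENNReal.ofReal t ∧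
      ∃ D : ℕ, ∀ x : AddCircle T, ∃ N : ℕ, N ≤ D ∧ c * (t * Real.sqrt (Real.log (1 / t))) <
        ‖partialS (E.indicator fun _ => (1 : ℂ)) N x‖ := by
  obtain ⟨c, hc, Λ, hΛ, hML⟩ := main_lemma_everywhere (T := T)
  refine ⟨c / 4, by positivity, Real.exp (-(Λ ^ 2)), Real.exp_pos _, fun t ht ht0 => ?_⟩
  have hlog : Λ ^ 2 ≤ Real.log (1 / t) := by
    rw [one_div, Real.log_inv]
    have h1 : Real.log t ≤ -(Λ ^ 2) := by
      rw [Real.log_le_iff_le_exp ht]; exact ht0.le
    linarith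
  obtain ⟨ℓ, hℓ⟩ : ∃ ℓ : ℝ, ℓ = Real.sqrt (Real.log (1 / t)) := ⟨_, rfl⟩
  have hlog0 : 0 ≤ Real.log (1 / t) := le_trans (by positivity) hlog
  have hsq : Λ ≤ ℓ := by rw [hℓ]; exact Real.le_sqrt_of_sq_le hlog
  have hℓ2 : ℓ ^ 2 = Real.log (1 / t) := by rw [hℓ]; exact Real.sq_sqrt hlog0
  have hℓ0 : 0 < ℓ := by linarith
  rw [← hℓ]
  obtain ⟨d, a, haP, ⟨m, ha0, hm0, hm1⟩, hbig⟩ := hML ℓ hsq
  have hexp : Real.exp (ℓ ^ 2) = 1 / t := by rw [hℓ2, Real.exp_log (by positivity)]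
  have hPc : ∀ x : AddCircle T, (((trigSum a d x).re : ℝ) : ℂ) = trigSum a d x := by
    intro x
    apply Complex.ext <;> simp [(haP x).1]
  obtain ⟨δ, hδ⟩ : ∃ δ : ℝ, δ = min (t / 2) (c / 8 * (t * ℓ) / (2 * d + 1)) := ⟨_, rfl⟩
  have hδ0 : 0 < δ := by rw [hδ]; exact lt_min (by positivity) (by positivity)
  have hδ1 : δ ≤ t / 2 := by rw [hδ]; exact min_le_left _ _
  have hδ2 : (2 * d + 1) * δ ≤ c / 8 * (t * ℓ) := by
    have h1 : δ ≤ c / 8 * (t * ℓ) / (2 * d + 1) := by rw [hδ]; exact min_le_right _ _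
    rw [le_div_iff₀ (by positivity)] at h1
    linarith
  obtain ⟨E, hEm, hE⟩ := exists_set_approx (T := T) (fun x => t / 2 * (trigSum a d x).re)
    (continuous_const.mul (Complex.continuous_re.comp (continuous_trigSum a d))) (fun x => ⟨by
      have := (haP x).2.1; positivity, by
      have h1 := (haP x).2.2
      rw [hexp] at h1
      calc t / 2 * (trigSum a d x).re ≤ t / 2 * (1 / t) := by gcongr
        _ ≤ 1 := by field_simp; norm_num⟩) d δ hδ0
  have hfun : (fun x : AddCircle T => ((t / 2 * (trigSum a d x).re : ℝ) : ℂ)) =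
      fun x => ((t / 2 : ℝ) : ℂ) * trigSum a d x := by
    ext x
    rw [Complex.ofReal_mul, hPc]
  simp only [hfun, fourierCoeff.const_mul] at hE
  refine ⟨E, hEm, ?_, ?_⟩
  · -- measure
    have h1 := hE 0 (by simp)
    rw [fourierCoeff_trigSum, if_pos (by simp), ha0, ← Complex.ofReal_mul] at h1
    have h2 : fourierCoeff (E.indicator fun _ => (1 : ℂ)) 0 =
        (((haarAddCircle (T := T)).real E : ℝ) : ℂ) := by
      unfold fourierCoeff
      simp only [neg_zero, fourier_zero, one_smul]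
      rw [integral_indicator hEm, setIntegral_const]
      simp
    rw [h2, ← Complex.ofReal_sub, Complex.norm_real, Real.norm_eq_abs] at h1
    have h3 := (abs_le.1 h1).2
    have h5 : t / 2 * m ≤ t / 2 := mul_le_of_le_one_right (by positivity) hm1
    have h4 : (haarAddCircle (T := T)).real E ≤ t := by linarith
    rw [← ENNReal.ofReal_toReal (measure_ne_top (haarAddCircle (T := T)) E)]
    exact ENNReal.ofReal_le_ofReal h4
  · refine ⟨d, fun x => ?_⟩
    obtain ⟨n, hn, hx⟩ := hbig x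
    refine ⟨n, hn, ?_⟩
    have h2 : ‖partialS (E.indicator fun _ => (1 : ℂ)) n x - ((t / 2 : ℝ) : ℂ) * trigSum a n x‖ ≤
        (2 * d + 1) * δ := by
      unfold partialS trigSum
      rw [mul_sum, ← sum_sub_distrib]
      refine (norm_sum_le _ _).trans ?_
      have h3 : ∀ k ∈ Icc (-(n : ℤ)) (n : ℤ),
          ‖fourierCoeff (E.indicator fun _ => (1 : ℂ)) k * (fourier k x : ℂ) -
            ((t / 2 : ℝ) : ℂ) * (a k * fourier k x)‖ ≤ δ := by
        intro k hk
        rw [mem_Icc] at hk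
        have h4 := hE k (by rw [abs_le]; omega)
        rw [fourierCoeff_trigSum, if_pos (by rw [mem_Icc]; omega)] at h4
        have h5 : fourierCoeff (E.indicator fun _ => (1 : ℂ)) k * (fourier k x : ℂ) -
            ((t / 2 : ℝ) : ℂ) * (a k * fourier k x) =
            (fourierCoeff (E.indicator fun _ => (1 : ℂ)) k - ((t / 2 : ℝ) : ℂ) * a k) *
              fourier k x := by ring
        rw [h5, norm_mul, norm_fourier, mul_one]
        exact h4
      refine (sum_le_sum h3).trans ?_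
      rw [sum_const, nsmul_eq_mul, Int.card_Icc]
      have h5 : (((n : ℤ) + 1 - -(n : ℤ)).toNat : ℝ) ≤ 2 * d + 1 := by
        have : ((n : ℤ) + 1 - -(n : ℤ)).toNat ≤ 2 * d + 1 := by omega
        exact_mod_cast this
      gcongr
    have h3 := norm_sub_norm_le (((t / 2 : ℝ) : ℂ) * trigSum a n x)
      (partialS (E.indicator fun _ => (1 : ℂ)) n x)
    rw [norm_sub_rev] at h3
    rw [norm_mul, Complex.norm_real, Real.norm_of_nonneg (by positivity)] at h3
    have h4 : t / 2 * (c * ℓ) ≤ t / 2 * ‖trigSum a n x‖ := by gcongr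
    have h5 : 0 < c * (t * ℓ) := by positivity
    linarith

/-- **Sets of small measure with a large partial sum at every point.** -/
theorem exists_set_every : ∃ c : ℝ, 0 < c ∧ ∃ t₀ : ℝ, 0 < t₀ ∧ ∀ t : ℝ, 0 < t → t < t₀ →
    ∃ E : Set (AddCircle T), MeasurableSet E ∧ haarAddCircle E ≤ ENNReal.ofReal t ∧
      ∀ x : AddCircle T, ∃ N : ℕ, c * (t * Real.sqrt (Real.log (1 / t))) <
        ‖partialS (E.indicator fun _ => (1 : ℂ)) N x‖ := by
  obtain ⟨c, hc, t₀, ht₀, h⟩ := exists_set_bdd (T := T)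
  refine ⟨c, hc, t₀, ht₀, fun t ht htt => ?_⟩
  obtain ⟨E, h1, h2, D, h3⟩ := h t ht htt
  exact ⟨E, h1, h2, fun x => by obtain ⟨N, -, hN⟩ := h3 x; exact ⟨N, hN⟩⟩

/-- **Every space of convergence, even on sets of positive measure, has fundamental function at
least `c t √(log (1/t))`.** -/
theorem necessary_sets {X : Type*} [AddCommGroup X] [Module ℂ X] [TopologicalSpace X]
    [IsTopologicalAddGroup X] [ContinuousSMul ℂ X] [BaireSpace X]
    (J : X →L[ℂ] Lp ℂ 1 (haarAddCircle (T := T))) (B : Set X) (hB : Bornology.IsVonNBounded ℂ B)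
    (hconv : ∀ g : X, haarAddCircle {x : AddCircle T | BddAbove (Set.range fun N : ℕ =>
      ‖partialS (J g : AddCircle T → ℂ) N x‖)} ≠ 0) :
    ∃ c : ℝ, 0 < c ∧ ∃ t₀ : ℝ, 0 < t₀ ∧ ∀ t : ℝ, 0 < t → t < t₀ →
      ∃ E : Set (AddCircle T), MeasurableSet E ∧ haarAddCircle E ≤ ENNReal.ofReal t ∧
        ∀ b ∈ B, ¬ ((J b : AddCircle T → ℂ) =ᵐ[haarAddCircle]
          E.indicator fun _ => ((1 / (c * (t * Real.sqrt (Real.log (1 / t)))) : ℝ) : ℂ)) := by
  obtain ⟨R, hR, hpt⟩ := point_of_baire J B hB hconv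
  obtain ⟨c₀, hc₀, t₀, ht₀, htest⟩ := exists_set_every (T := T)
  refine ⟨c₀ / R, by positivity, min t₀ 1, lt_min ht₀ one_pos, fun t ht htt => ?_⟩
  obtain ⟨E, hEm, hEt, hbig⟩ := htest t ht (htt.trans_le (min_le_left _ _))
  refine ⟨E, hEm, hEt, fun b hb hJ => ?_⟩
  have ht1 : t < 1 := htt.trans_le (min_le_right _ _)
  have hlog : 0 < Real.log (1 / t) := by
    apply Real.log_pos
    rw [lt_div_iff₀ ht]; linarith
  obtain ⟨s, hs⟩ : ∃ s : ℝ, s = t * Real.sqrt (Real.log (1 / t)) := ⟨_, rfl⟩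
  have hs0 : 0 < s := by rw [hs]; positivity
  rw [← hs] at hJ hbig
  obtain ⟨x, hx⟩ := hpt b hb
  obtain ⟨N, hN⟩ := hbig x
  have h3 := hx N
  rw [partialS_indicator hJ, norm_mul, Complex.norm_real, Real.norm_of_nonneg (by positivity),
    one_div, inv_mul_le_iff₀ (by positivity)] at h3
  have h4 : c₀ / R * s * R = c₀ * s := by field_simp
  linarith

/-- **Generic everywhere divergence** in spaces with small fundamental function. -/
theorem generic_sets {X : Type*} [AddCommGroup X] [Module ℂ X] [TopologicalSpace X]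
    [IsTopologicalAddGroup X] [ContinuousSMul ℂ X]
    (J : X →L[ℂ] Lp ℂ 1 (haarAddCircle (T := T))) (B : Set X) (hB : Bornology.IsVonNBounded ℂ B)
    (hdense : Dense {g : X | ∃ C : ℝ, ∀ (N : ℕ) (x : AddCircle T),
      ‖partialS (J g : AddCircle T → ℂ) N x‖ ≤ C})
    (hbig : ∀ η : ℝ, 0 < η → ∀ t₀ : ℝ, 0 < t₀ → ∃ t : ℝ, 0 < t ∧ t < t₀ ∧
      ∀ E : Set (AddCircle T), MeasurableSet E → haarAddCircle E ≤ ENNReal.ofReal t →
      ∃ b ∈ B, (J b : AddCircle T → ℂ) =ᵐ[haarAddCircle]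
        E.indicator fun _ => ((1 / (η * (t * Real.sqrt (Real.log (1 / t)))) : ℝ) : ℂ)) :
    {g : X | ∀ x : AddCircle T, ¬ BddAbove (Set.range fun N : ℕ =>
      ‖partialS (J g : AddCircle T → ℂ) N x‖)} ∈ residual X := by
  set G : ℕ → Set X := fun n => {g : X | ∀ x : AddCircle T, ∃ N : ℕ,
    n < ‖partialS (J g : AddCircle T → ℂ) N x‖} with hG
  have hopen : ∀ n, IsOpen (G n) := by
    intro n
    rw [← isClosed_compl_iff]
    have h1 : (G n)ᶜ = Prod.fst '' {p : X × AddCircle T | ∀ N : ℕ,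
        ‖partialS (J p.1 : AddCircle T → ℂ) N p.2‖ ≤ n} := by
      ext g
      simp only [hG, Set.mem_compl_iff, Set.mem_ofPred_eq, Set.mem_image, Prod.exists,
        exists_and_right, exists_eq_right]
      push Not
      rfl
    rw [h1]
    apply isClosedMap_fst_of_compactSpace
    have h2 : {p : X × AddCircle T | ∀ N : ℕ,
        ‖partialS (J p.1 : AddCircle T → ℂ) N p.2‖ ≤ n} =
        ⋂ N : ℕ, {p : X × AddCircle T | ‖partialS (J p.1 : AddCircle T → ℂ) N p.2‖ ≤ n} := by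
      ext p; simp only [Set.mem_ofPred_eq, Set.mem_iInter]
    rw [h2]
    refine isClosed_iInter fun N => isClosed_le ?_ continuous_const
    have h3 : Continuous fun p : X × AddCircle T => (J p.1, p.2) :=
      (J.continuous.comp continuous_fst).prodMk continuous_snd
    exact ((continuous_partialS (T := T) N).comp h3).norm
  have hden : ∀ n, Dense (G n) := by
    intro n
    rw [dense_iff_inter_open]
    intro U hU hUne
    obtain ⟨g₀, hg₀U, C, hC⟩ := hdense.inter_open_nonempty U hU hUne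
    have hC0 : 0 ≤ C := (norm_nonneg _).trans (hC 0 0)
    have hV : (fun h : X => g₀ + h) ⁻¹' U ∈ 𝓝 (0 : X) := by
      apply (hU.preimage (by fun_prop)).mem_nhds
      simpa using hg₀U
    obtain ⟨ρ, hρ, hρB⟩ := absorb_real hB hV
    obtain ⟨c₀, hc₀, t₀, ht₀, htest⟩ := exists_set_every (T := T)
    obtain ⟨R, hRdef⟩ : ∃ R : ℝ, R = (n + C) * ρ + 1 := ⟨_, rfl⟩
    have hR : 0 < R := by rw [hRdef]; positivity
    obtain ⟨t, ht, htt, hE⟩ := hbig (c₀ / R) (by positivity) (min t₀ 1) (lt_min ht₀ one_pos)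
    obtain ⟨E, hEm, hEt, hlarge⟩ := htest t ht (htt.trans_le (min_le_left _ _))
    obtain ⟨b, hb, hJ⟩ := hE E hEm hEt
    have ht1 : t < 1 := htt.trans_le (min_le_right _ _)
    have hlog : 0 < Real.log (1 / t) := by
      apply Real.log_pos
      rw [lt_div_iff₀ ht]; linarith
    obtain ⟨s, hs⟩ : ∃ s : ℝ, s = t * Real.sqrt (Real.log (1 / t)) := ⟨_, rfl⟩
    have hs0 : 0 < s := by rw [hs]; positivity
    rw [← hs] at hJ hlarge
    refine ⟨g₀ + ((ρ⁻¹ : ℝ) : ℂ) • b, hρB ρ le_rfl b hb, ?_⟩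
    intro x
    obtain ⟨N, hN⟩ := hlarge x
    refine ⟨N, ?_⟩
    have h1 : R < ‖partialS (J b : AddCircle T → ℂ) N x‖ := by
      rw [partialS_indicator hJ, norm_mul, Complex.norm_real, Real.norm_of_nonneg (by positivity),
        one_div, lt_inv_mul_iff₀ (by positivity)]
      refine lt_of_le_of_lt (le_of_eq ?_) hN
      field_simp
    rw [map_add, map_smul, partialS_add, partialS_smul]
    have h4 := norm_sub_le (partialS (J g₀ : AddCircle T → ℂ) N x + ((ρ⁻¹ : ℝ) : ℂ) *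
      partialS (J b : AddCircle T → ℂ) N x) (partialS (J g₀ : AddCircle T → ℂ) N x)
    rw [add_sub_cancel_left, norm_mul, Complex.norm_real,
      Real.norm_of_nonneg (by positivity)] at h4
    have h5 := hC N x
    have h6 : n + C < ρ⁻¹ * ‖partialS (J b : AddCircle T → ℂ) N x‖ := by
      rw [lt_inv_mul_iff₀ hρ]
      rw [hRdef] at h1
      linarith
    linarith
  have hres : ∀ᶠ g in residual X, ∀ n, g ∈ G n :=
    eventually_countable_forall.2 fun n => residual_of_dense_open (hopen n) (hden n)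
  filter_upwards [hres] with g hg
  intro x
  rw [not_bddAbove_iff]
  intro b
  obtain ⟨n, hn⟩ := exists_nat_ge b
  obtain ⟨N, hN⟩ := hg n x
  exact ⟨_, ⟨N, rfl⟩, lt_of_le_of_lt hn hN⟩

end Vale.Agent.P091
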