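import Vale.Agent.P091.H690b.Coef

set_option linter.all false

namespace Vale.Agent.P091

open Finset MeasureTheory AddCircle Filter Topology

variable {T : ℝ} [hT : Fact (0 < T)]

/-- a bounded set is absorbed by a neighbourhood of zero, real form -/
theorem absorb_real {X : Type*} [AddCommGroup X] [Module ℂ X] [TopologicalSpace X]
    {B : Set X} (hB : Bornology.IsVonNBounded ℂ B) {V : Set X} (hV : V ∈ 𝓝 (0 : X)) :
    ∃ ρ : ℝ, 0 < ρ ∧ ∀ s : ℝ, ρ ≤ s → ∀ b ∈ B, (((s⁻¹ : ℝ) : ℂ)) • b ∈ V := by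
  have h1 := (hB hV)
  rw [absorbs_iff_norm] at h1
  obtain ⟨r, hr⟩ := h1
  refine ⟨max r 1, by positivity, fun s hs b hb => ?_⟩
  have hpos : 0 < s := lt_of_lt_of_le (by positivity) hs
  have h2 := hr ((s : ℝ) : ℂ) (by
    rw [Complex.norm_real, Real.norm_of_nonneg hpos.le]; exact (le_max_left _ _).trans hs) hb
  rw [Set.mem_smul_set] at h2
  obtain ⟨v, hv, hvb⟩ := h2
  rw [← hvb, smul_smul]
  have h3 : ((s⁻¹ : ℝ) : ℂ) * ((s : ℝ) : ℂ) = 1 := by
    rw [← Complex.ofReal_mul, inv_mul_cancel₀ hpos.ne', Complex.ofReal_one]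
  rw [h3, one_smul]
  exact hv

/-- partial sums of a constant multiple of an indicator function -/
theorem partialS_indicator {g : AddCircle T → ℂ} {E : Set (AddCircle T)} {κ : ℝ}
    (h : g =ᵐ[haarAddCircle] E.indicator fun _ => ((κ : ℝ) : ℂ)) (N : ℕ) (x : AddCircle T) :
    partialS g N x = ((κ : ℝ) : ℂ) * partialS (E.indicator fun _ => (1 : ℂ)) N x := by
  rw [partialS_congr h]
  unfold partialS
  have h1 : (E.indicator fun _ => ((κ : ℝ) : ℂ) : AddCircle T → ℂ) =
      fun x => ((κ : ℝ) : ℂ) * E.indicator (fun _ => (1 : ℂ)) x := by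
    ext x
    by_cases hx : x ∈ E
    · rw [Set.indicator_of_mem hx, Set.indicator_of_mem hx, mul_one]
    · rw [Set.indicator_of_notMem hx, Set.indicator_of_notMem hx, mul_zero]
  rw [h1, mul_sum]
  refine sum_congr rfl fun k _ => ?_
  rw [fourierCoeff.const_mul, mul_assoc]

/-- if for every `g` the partial sums are bounded on a set of positive measure, then for the
elements of a bounded set they are bounded by one constant at some point -/
theorem point_of_baire {X : Type*} [AddCommGroup X] [Module ℂ X] [TopologicalSpace X]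
    [IsTopologicalAddGroup X] [ContinuousSMul ℂ X] [BaireSpace X]
    (J : X →L[ℂ] Lp ℂ 1 (haarAddCircle (T := T))) (B : Set X) (hB : Bornology.IsVonNBounded ℂ B)
    (hconv : ∀ g : X, haarAddCircle {x : AddCircle T | BddAbove (Set.range fun N : ℕ =>
      ‖partialS (J g : AddCircle T → ℂ) N x‖)} ≠ 0) :
    ∃ R : ℝ, 0 < R ∧ ∀ b ∈ B, ∃ x : AddCircle T,
      ∀ N : ℕ, ‖partialS (J b : AddCircle T → ℂ) N x‖ ≤ R := by
  -- Baire
  set F : ℕ → Set X := fun n => {g : X | ENNReal.ofReal (1 / (n + 1)) ≤ haarAddCircle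
    {x : AddCircle T | ∀ N : ℕ, ‖partialS (J g : AddCircle T → ℂ) N x‖ ≤ n}} with hF
  have hFc : ∀ n, IsClosed (F n) := fun n =>
    (isClosed_level (n : ℝ) (ENNReal.ofReal (1 / (n + 1)))).preimage J.continuous
  have hFU : ⋃ n, F n = Set.univ := by
    rw [Set.eq_univ_iff_forall]
    intro g
    rw [Set.mem_iUnion]
    set E : ℕ → Set (AddCircle T) := fun n =>
      {x : AddCircle T | ∀ N : ℕ, ‖partialS (J g : AddCircle T → ℂ) N x‖ ≤ n} with hE
    have hmono : Monotone E := by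
      intro n m hnm x hx N
      exact (hx N).trans (by exact_mod_cast hnm)
    have hun : {x : AddCircle T | BddAbove (Set.range fun N : ℕ =>
        ‖partialS (J g : AddCircle T → ℂ) N x‖)} ⊆ ⋃ n, E n := by
      intro x hx
      obtain ⟨b, hb⟩ := hx
      obtain ⟨n, hn⟩ := exists_nat_ge b
      rw [Set.mem_iUnion]
      exact ⟨n, fun N => (hb ⟨N, rfl⟩).trans hn⟩
    have hpos : haarAddCircle (⋃ n, E n) ≠ 0 := fun h => hconv g (measure_mono_null hun h)
    obtain ⟨m, hm⟩ : ∃ m, haarAddCircle (E m) ≠ 0 := by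
      by_contra hcon
      push Not at hcon
      exact hpos (measure_iUnion_null hcon)
    have hlim : Tendsto (fun n : ℕ => ENNReal.ofReal (1 / ((n : ℝ) + 1))) atTop (𝓝 0) := by
      have := ENNReal.tendsto_ofReal (tendsto_one_div_add_atTop_nhds_zero_nat (𝕜 := ℝ))
      simpa using this
    have hev := hlim.eventually (gt_mem_nhds (pos_iff_ne_zero.2 hm))
    obtain ⟨n, hn1, hn2⟩ := (hev.and (eventually_ge_atTop m)).exists
    exact ⟨n, hn1.le.trans (measure_mono (hmono hn2))⟩
  obtain ⟨n, g₀, hg₀⟩ := nonempty_interior_of_iUnion_of_closed hFc hFU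
  have hV : (fun h : X => g₀ + h) ⁻¹' (interior (F n)) ∈ 𝓝 (0 : X) := by
    apply (isOpen_interior.preimage (by fun_prop)).mem_nhds
    simpa using hg₀
  obtain ⟨ρ, hρ, hρB⟩ := absorb_real hB hV
  refine ⟨2 * n * (ρ * (n + 1)) + 1, by positivity, fun b hb => ?_⟩
  -- the points `g₀ + (j / (K ρ)) b`
  set A : ℕ → Set (AddCircle T) := fun j => {x : AddCircle T | ∀ N : ℕ,
    ‖partialS (J (g₀ + ((j / ((n + 1) * ρ) : ℝ) : ℂ) • b) : AddCircle T → ℂ) N x‖ ≤ n} with hA
  have hAm : ∀ j, MeasurableSet (A j) := fun j => (isClosed_levelset _ _).measurableSet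
  have hAge : ∀ j ∈ Finset.range (n + 2), ENNReal.ofReal (1 / (n + 1)) ≤ haarAddCircle (A j) := by
    intro j hj
    rw [Finset.mem_range] at hj
    have hmem : g₀ + ((j / ((n + 1) * ρ) : ℝ) : ℂ) • b ∈ F n := by
      rcases Nat.eq_zero_or_pos j with h0 | h0
      · rw [h0]
        simpa using interior_subset hg₀
      · have h1 := hρB ((n + 1) * ρ / j) (by
          rw [le_div_iff₀ (by exact_mod_cast h0)]
          have : (j : ℝ) ≤ n + 1 := by exact_mod_cast (by omega : j ≤ n + 1)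
          nlinarith) b hb
        rw [inv_div] at h1
        exact interior_subset h1
    exact hmem
  obtain ⟨i, hi, j, hj, hij, x, hx1, hx2⟩ : ∃ i ∈ Finset.range (n + 2),
      ∃ j ∈ Finset.range (n + 2), ∃ _ : i ≠ j, (A i ∩ A j).Nonempty := by
    apply exists_nonempty_inter_of_measure_univ_lt_sum_measure (haarAddCircle (T := T))
      (fun j _ => (hAm j).nullMeasurableSet)
    rw [measure_univ]
    calc (1 : ENNReal) < ∑ _j ∈ Finset.range (n + 2), ENNReal.ofReal (1 / (n + 1)) := by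
          rw [Finset.sum_const, Finset.card_range, ← ENNReal.ofReal_nsmul]
          rw [← ENNReal.ofReal_one, ENNReal.ofReal_lt_ofReal_iff_of_nonneg (by norm_num)]
          rw [nsmul_eq_mul]
          push_cast
          rw [mul_one_div, lt_div_iff₀ (by positivity)]
          linarith
      _ ≤ _ := Finset.sum_le_sum hAge
  refine ⟨x, fun N => ?_⟩
  have h1 := hx1 N
  have h2 := hx2 N
  rw [map_add, map_smul, partialS_add, partialS_smul] at h1 h2
  have h3 := (norm_sub_le
    (partialS (J g₀ : AddCircle T → ℂ) N x + ((i / ((n + 1) * ρ) : ℝ) : ℂ) *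
      partialS (J b : AddCircle T → ℂ) N x)
    (partialS (J g₀ : AddCircle T → ℂ) N x + ((j / ((n + 1) * ρ) : ℝ) : ℂ) *
      partialS (J b : AddCircle T → ℂ) N x)).trans (add_le_add h1 h2)
  have h4 : (partialS (J g₀ : AddCircle T → ℂ) N x + ((i / ((n + 1) * ρ) : ℝ) : ℂ) *
      partialS (J b : AddCircle T → ℂ) N x) -
    (partialS (J g₀ : AddCircle T → ℂ) N x + ((j / ((n + 1) * ρ) : ℝ) : ℂ) *
      partialS (J b : AddCircle T → ℂ) N x) =
      (((i - j) / ((n + 1) * ρ) : ℝ) : ℂ) * partialS (J b : AddCircle T → ℂ) N x := by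
    push_cast
    ring
  rw [h4, norm_mul, Complex.norm_real, Real.norm_eq_abs, abs_div, abs_of_pos
    (by positivity : (0 : ℝ) < (n + 1) * ρ)] at h3
  have h5 : (1 : ℝ) ≤ |(i : ℝ) - j| := by
    have h6 : (1 : ℤ) ≤ |(i : ℤ) - j| := Int.one_le_abs (by omega)
    have h7 : ((1 : ℤ) : ℝ) ≤ ((|(i : ℤ) - j| : ℤ) : ℝ) := by exact_mod_cast h6
    push_cast at h7
    exact h7
  rw [div_mul_eq_mul_div, div_le_iff₀ (by positivity)] at h3
  have h6 := norm_nonneg (partialS (J b : AddCircle T → ℂ) N x)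
  nlinarith

end Vale.Agent.P091
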